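import Vale.Agent.P181.H914.Frame
import Mathlib.Algebra.MvPolynomial.Funext
import Mathlib.RingTheory.MvPolynomial.WeightedHomogeneous

set_option autoImplicit false

open MvPolynomial
open scoped Classical

/-!
# P181, T7: the algebra

Heads of exact length: pure letters, free letters whose marks lie in columns of length at most `R`,
one mark per column; the forcing is an abstract hypothesis.
-/

namespace Vale.Agent.P181.T7

open Vale.Agent.P181.FR Vale.Agent.P181.H188W Vale.Agent.P181.T4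

/-- The top part of a filling. Rows are numbered from `0`; `T` = pure letters (the letter `t`
carries the vector `e_(cls t)`), `Fin N` = free letters, `C` = columns; `srv c i` is the letter
serving the row `i` of the column `c` (only `i < len c`, `i < R` matter). A row served by a free
letter is called a mark; a column with a mark has length at most `R` and only one mark. -/
structure Top7 (m R N : ℕ) (T : Type) (cls : T → ℕ) (C : Type) where
  len : C → ℕ
  len_le : ∀ c, len c ≤ m
  srv : C → ℕ → T ⊕ Fin N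
  serve : ∀ c, ∀ i < len c, i < R → (∃ t, srv c i = Sum.inl t ∧ cls t = i) ∨
    (len c ≤ R ∧ (∃ q, srv c i = Sum.inr q) ∧
      ∀ i' < len c, i' ≠ i → ∃ t, srv c i' = Sum.inl t ∧ cls t = i')

namespace Top7

variable {m R N : ℕ} {T C : Type} [Fintype T] [Fintype C] {cls : T → ℕ}
  (Fr : Top7 m R N T cls C)

/-- The letters of a column: the servers and then the letters of the lower part. -/
noncomputable def J (c : C) (lo : Fin (Fr.len c - R) → Fin N) (j : Fin (Fr.len c)) : T ⊕ Fin N :=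
  if h : (j : ℕ) < R then Fr.srv c j else Sum.inr (lo ⟨j - R, by omega⟩)

/-- The type of a free letter: the numbers of its marks in the rows. -/
noncomputable def typ (q : Fin N) (i : ℕ) : ℕ :=
  (Finset.univ.filter fun c => i < R ∧ i < Fr.len c ∧ Fr.srv c i = Sum.inr q).card

/-- **Forcing**: every labelling of the letters by pure labels `some i` and free labels `none`
with the right numbers of labels, without two equal pure labels in a column, with the label `i`
only in columns longer than `i` and with at most `t 0 + … + t (l - 1)` free labels in the columns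
of length at most `l`, is the natural one. -/
def Forced (t : ℕ → ℕ) (lo : (c : C) → Fin (Fr.len c - R) → Fin N) : Prop :=
  ∀ χ : T ⊕ Fin N → Option (Fin R),
    (∀ i : Fin R, (Finset.univ.filter fun p => χ p = some i).card =
      (Finset.univ.filter fun x : T => cls x = i).card) →
    (∀ c, ∀ j j' : Fin (Fr.len c), j ≠ j' → χ (Fr.J c (lo c) j) = χ (Fr.J c (lo c) j') →
      χ (Fr.J c (lo c) j) = none) →
    (∀ c, ∀ j : Fin (Fr.len c), ∀ k : Fin R, χ (Fr.J c (lo c) j) = some k →
      (k : ℕ) < Fr.len c) →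
    (∀ l ≤ R, ∑ c ∈ Finset.univ.filter (fun c => Fr.len c ≤ l),
      (Finset.univ.filter fun j => χ (Fr.J c (lo c) j) = none).card ≤
        ∑ i ∈ Finset.range l, t i) →
    (∀ x : T, ∃ i : Fin R, χ (Sum.inl x) = some i ∧ (i : ℕ) = cls x) ∧
      ∀ q, χ (Sum.inr q) = none

/-- The factor of the column `c` when the letter `p` carries the vector of `π p`. -/
noncomputable def D (z : Fin N → ℕ → ℂ) (π : Equiv.Perm (T ⊕ Fin N)) (c : C)
    (lo : Fin (Fr.len c - R) → Fin N) : MvPolynomial (ℕ × Fin N) ℂ :=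
  Matrix.det (Matrix.of fun j k : Fin (Fr.len c) =>
    ent R cls (fun _ => False) z (π (Fr.J c lo j)) k)

variable {Fr}

lemma J_of_lt {c : C} {lo : Fin (Fr.len c - R) → Fin N} {j : Fin (Fr.len c)} (h : (j : ℕ) < R) :
    Fr.J c lo j = Fr.srv c j := by
  unfold J
  rw [dif_pos h]

lemma J_of_ge {c : C} {lo : Fin (Fr.len c - R) → Fin N} {j : Fin (Fr.len c)} (h : R ≤ (j : ℕ)) :
    Fr.J c lo j = Sum.inr (lo ⟨j - R, by omega⟩) := by
  unfold J
  rw [dif_neg (by omega)]

end Top7

/-! ### Weights -/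

/-- the weight counting the variables of the rows `< l` -/
def wt (N l : ℕ) : ℕ × Fin N → ℕ := fun x => if x.1 < l then 1 else 0

lemma coeff_mul_whomog {σ : Type} {w : σ → ℕ} {g h : MvPolynomial σ ℂ} {K : ℕ}
    (hg : g.IsWeightedHomogeneous w K) {μ : σ →₀ ℕ} (hμ : Finsupp.weight w μ < K) :
    coeff μ (g * h) = 0 := by
  rw [coeff_mul]
  apply Finset.sum_eq_zero
  intro x hx
  rw [Finset.mem_antidiagonal] at hx
  have h1 : coeff x.1 g = 0 := by
    by_contra hne
    have h2 := hg hne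
    have h3 : Finsupp.weight w x.1 + Finsupp.weight w x.2 = Finsupp.weight w μ := by
      rw [← hx, map_add]
    omega
  rw [h1, zero_mul]

section ents

variable {T : Type} {R N : ℕ} {cls : T → ℕ}

lemma vec_pure (t : T) (k : ℕ) : vec cls (fun _ => False) t k = if k = cls t then 1 else 0 := by
  simp [vec]

lemma ent_whomog {l : ℕ} (hl : l ≤ R) {z : Fin N → ℕ → ℂ} (p : T ⊕ Fin N) {i : ℕ}
    (hi : i < l) : (ent R cls (fun _ => False) z p i).IsWeightedHomogeneous (wt N l)
      (if p.isRight then 1 else 0) := by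
  rcases p with t | q
  · simpa [ent] using isWeightedHomogeneous_C (wt N l) _
  · have h1 : i < R := by omega
    have h2 : wt N l (i, q) = 1 := by simp [wt, hi]
    simp only [ent, h1, if_true, Sum.isRight_inr]
    rw [← h2]
    exact isWeightedHomogeneous_X ℂ (wt N l) (i, q)

lemma det_whomog {l L : ℕ} (hL : L ≤ l) (hl : l ≤ R) {z : Fin N → ℕ → ℂ}
    (f : Fin L → T ⊕ Fin N) :
    (Matrix.det (Matrix.of fun j k : Fin L =>
      ent R cls (fun _ => False) z (f j) k)).IsWeightedHomogeneous (wt N l)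
        (∑ j, if (f j).isRight then 1 else 0) := by
  rw [Matrix.det_apply]
  apply IsWeightedHomogeneous.sum
  intro τ _
  have h1 : (∏ i, (Matrix.of fun j k : Fin L =>
      ent R cls (fun _ => False) z (f j) k) (τ i) i).IsWeightedHomogeneous (wt N l)
      (∑ j, if (f (τ j)).isRight then 1 else 0) := by
    apply IsWeightedHomogeneous.prod
    intro i _
    exact ent_whomog hl _ (lt_of_lt_of_le i.2 hL)
  rw [Equiv.sum_comp τ (fun j => if (f j).isRight then 1 else 0)] at h1
  rcases Int.units_eq_one_or (Equiv.Perm.sign τ) with h | h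
  · rw [h, one_smul]; exact h1
  · rw [h, Units.neg_smul, one_smul]
    intro d hd
    rw [coeff_neg, ne_eq, neg_eq_zero] at hd
    exact h1 hd

end ents

namespace Top7

variable {m R N : ℕ} {T C : Type} [Fintype T] [Fintype C] {cls : T → ℕ}
  (Fr : Top7 m R N T cls C)

/-- the labels of a placement -/
def chi (hcls : ∀ t, cls t < R) (π : Equiv.Perm (T ⊕ Fin N)) (p : T ⊕ Fin N) :
    Option (Fin R) :=
  Sum.elim (fun t => some ⟨cls t, hcls t⟩) (fun _ => none) (π p)

lemma chi_none_iff (hcls : ∀ t, cls t < R) (π : Equiv.Perm (T ⊕ Fin N)) (p : T ⊕ Fin N) :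
    chi hcls π p = none ↔ (π p).isRight = true := by
  unfold chi
  rcases π p with t | q <;> simp

lemma chi_some_iff (hcls : ∀ t, cls t < R) (π : Equiv.Perm (T ⊕ Fin N)) (p : T ⊕ Fin N)
    (i : Fin R) : chi hcls π p = some i ↔ ∃ t, π p = Sum.inl t ∧ cls t = i := by
  unfold chi
  rcases π p with t | q
  · simp [Fin.ext_iff]
  · simp

/-- the total weight is at least the number of free labels in the short columns -/
lemma weight_le (hcls : ∀ t, cls t < R) (z : Fin N → ℕ → ℂ) (π : Equiv.Perm (T ⊕ Fin N))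
    (lo : (c : C) → Fin (Fr.len c - R) → Fin N) {μ : (ℕ × Fin N) →₀ ℕ}
    (hne : coeff μ (∏ c, Fr.D z π c (lo c)) ≠ 0) {l : ℕ} (hl : l ≤ R) :
    ∑ c ∈ Finset.univ.filter (fun c => Fr.len c ≤ l),
      (Finset.univ.filter fun j => chi hcls π (Fr.J c (lo c) j) = none).card ≤
        Finsupp.weight (wt N l) μ := by
  by_contra hlt
  rw [not_le] at hlt
  apply hne
  rw [← Finset.prod_filter_mul_prod_filter_not Finset.univ (fun c => Fr.len c ≤ l)]
  apply coeff_mul_whomog (w := wt N l) _ hlt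
  apply IsWeightedHomogeneous.prod
  intro c hc
  rw [Finset.mem_filter] at hc
  have h1 := det_whomog (cls := cls) (z := z) hc.2 hl (fun j => π (Fr.J c (lo c) j))
  have h2 : (Finset.univ.filter fun j => chi hcls π (Fr.J c (lo c) j) = none).card =
      ∑ j, if (π (Fr.J c (lo c) j)).isRight then 1 else 0 := by
    rw [Finset.card_filter]
    apply Finset.sum_congr rfl
    intro j _
    exact if_congr (chi_none_iff hcls π _) rfl rfl
  rw [h2]
  exact h1

lemma D_eq_rows (z : Fin N → ℕ → ℂ) (π : Equiv.Perm (T ⊕ Fin N)) {c : C}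
    {lo : Fin (Fr.len c - R) → Fin N} {j j' : Fin (Fr.len c)} (hj : j ≠ j') {t t' : T}
    (h : π (Fr.J c lo j) = Sum.inl t) (h' : π (Fr.J c lo j') = Sum.inl t')
    (hc : cls t = cls t') : Fr.D z π c lo = 0 := by
  unfold D
  apply Matrix.det_zero_of_row_eq hj
  funext k
  rw [Matrix.of_apply, Matrix.of_apply, h, h']
  simp only [ent, vec_pure, hc]

lemma D_zero_row (z : Fin N → ℕ → ℂ) (π : Equiv.Perm (T ⊕ Fin N)) {c : C}
    {lo : Fin (Fr.len c - R) → Fin N} {j : Fin (Fr.len c)} {t' : T}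
    (h : π (Fr.J c lo j) = Sum.inl t') (hc : Fr.len c ≤ cls t') : Fr.D z π c lo = 0 := by
  unfold D
  apply Matrix.det_eq_zero_of_row_eq_zero j
  intro k
  rw [Matrix.of_apply, h]
  simp only [ent, vec_pure]
  have hk := k.2
  rw [if_neg (by omega), map_zero]

/-- `π` maps the pure letters of class `i` to pure letters of class `i` and permutes the free
letters by `τ`. -/
def Typed (cls : T → ℕ) (π : Equiv.Perm (T ⊕ Fin N)) (τ : Equiv.Perm (Fin N)) : Prop :=
  (∀ q, π (Sum.inr q) = Sum.inr (τ q)) ∧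
  ∀ t, ∃ t', π (Sum.inl t) = Sum.inl t' ∧ cls t' = cls t

/-- **Step 1**: a placement with a nonzero coefficient is typed. -/
lemma typed_of_ne (hcls : ∀ t, cls t < R) {t : ℕ → ℕ}
    {lo : (c : C) → Fin (Fr.len c - R) → Fin N} (hF : Fr.Forced t lo)
    (z : Fin N → ℕ → ℂ) (π : Equiv.Perm (T ⊕ Fin N)) {μ : (ℕ × Fin N) →₀ ℕ}
    (hμ : ∀ l ≤ R, Finsupp.weight (wt N l) μ ≤ ∑ i ∈ Finset.range l, t i)
    (hne : coeff μ (∏ c, Fr.D z π c (lo c)) ≠ 0) : ∃ τ, Typed cls π τ := by
  have hD : ∀ c, Fr.D z π c (lo c) ≠ 0 := by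
    intro c h0
    apply hne
    rw [Finset.prod_eq_zero (Finset.mem_univ c) h0, coeff_zero]
  obtain ⟨h1, h2⟩ := hF (chi hcls π)
    (by
      intro i
      symm
      apply Finset.card_bij (fun x _ => π.symm (Sum.inl x))
      · intro x hx
        rw [Finset.mem_filter] at hx
        rw [Finset.mem_filter]
        exact ⟨Finset.mem_univ _, (chi_some_iff hcls π _ i).2 ⟨x, by simp, hx.2⟩⟩
      · intro x _ y _ h
        exact Sum.inl_injective (π.symm.injective h)
      · intro p hp
        rw [Finset.mem_filter] at hp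
        obtain ⟨x, hx, hxi⟩ := (chi_some_iff hcls π _ i).1 hp.2
        refine ⟨x, by rw [Finset.mem_filter]; exact ⟨Finset.mem_univ _, hxi⟩, ?_⟩
        rw [← hx, Equiv.symm_apply_apply])
    (by
      intro c j j' hj hjj
      by_contra hn
      obtain ⟨k, hk⟩ := Option.ne_none_iff_exists'.1 hn
      rw [hk] at hjj
      obtain ⟨x, hx, hxk⟩ := (chi_some_iff hcls π _ k).1 hk
      obtain ⟨x', hx', hxk'⟩ := (chi_some_iff hcls π _ k).1 hjj.symm
      exact hD c (Fr.D_eq_rows z π hj hx hx' (hxk.trans hxk'.symm)))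
    (by
      intro c j k hk
      by_contra hlt
      rw [not_lt] at hlt
      obtain ⟨x, hx, hxk⟩ := (chi_some_iff hcls π _ k).1 hk
      exact hD c (Fr.D_zero_row z π hx (by omega)))
    (fun l hl => (Fr.weight_le hcls z π lo hne hl).trans (hμ l hl))
  have hg : ∀ q : Fin N, ∃ q', π (Sum.inr q) = Sum.inr q' := by
    intro q
    have h3 := (chi_none_iff hcls π _).1 (h2 q)
    rcases hp : π (Sum.inr q) with t' | q'
    · rw [hp] at h3
      exact absurd h3 (by simp)
    · exact ⟨q', rfl⟩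
  choose g hg using hg
  have hginj : Function.Injective g := by
    intro q q' h
    have h3 : π (Sum.inr q) = π (Sum.inr q') := by rw [hg, hg, h]
    exact Sum.inr_injective (π.injective h3)
  refine ⟨Equiv.ofBijective g (Finite.injective_iff_bijective.1 hginj),
    fun q => by rw [hg]; rfl, fun x => ?_⟩
  obtain ⟨i, hi, hix⟩ := h1 x
  obtain ⟨t', ht', hc⟩ := (chi_some_iff hcls π _ i).1 hi
  exact ⟨t', ht', hc.trans hix⟩

/-! ### The value -/

/-- the minor of the lower part -/
noncomputable def low (z : Fin N → ℕ → ℂ) (τ : Equiv.Perm (Fin N)) (c : C)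
    (lo : Fin (Fr.len c - R) → Fin N) : ℂ :=
  Matrix.det (Matrix.of fun j k : Fin (Fr.len c - R) => z (τ (lo j)) k)

/-- the exponent of the mark -/
noncomputable def mex (τ : Equiv.Perm (Fin N)) (i : ℕ) (p : T ⊕ Fin N) : (ℕ × Fin N) →₀ ℕ :=
  Sum.elim (fun _ => 0) (fun q => Finsupp.single (i, τ q) 1) p

variable {Fr}

lemma Typed.ent_inl {π : Equiv.Perm (T ⊕ Fin N)} {τ : Equiv.Perm (Fin N)}
    (h : Typed cls π τ) (z : Fin N → ℕ → ℂ) (t : T) (k : ℕ) :
    ent R cls (fun _ => False) z (π (Sum.inl t)) k =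
      MvPolynomial.C (if k = cls t then 1 else 0) := by
  obtain ⟨t', ht, hc⟩ := h.2 t
  rw [ht]
  simp only [ent, vec_pure, hc]

lemma low_short (z : Fin N → ℕ → ℂ) (τ : Equiv.Perm (Fin N)) {c : C}
    (lo : Fin (Fr.len c - R) → Fin N) (hc : Fr.len c ≤ R) : Fr.low z τ c lo = 1 := by
  unfold low
  have h6 : Fr.len c - R = 0 := by omega
  have : IsEmpty (Fin (Fr.len c - R)) := by rw [h6]; infer_instance
  exact Matrix.det_isEmpty

/-- a column with a pure top -/
lemma Typed.D_pure {π : Equiv.Perm (T ⊕ Fin N)} {τ : Equiv.Perm (Fin N)}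
    (h : Typed cls π τ) (z : Fin N → ℕ → ℂ) {c : C} (lo : Fin (Fr.len c - R) → Fin N)
    (hp : ∀ i < Fr.len c, i < R → ∃ t, Fr.srv c i = Sum.inl t ∧ cls t = i) :
    Fr.D z π c lo = MvPolynomial.C (Fr.low z τ c lo) := by
  by_cases hc : Fr.len c ≤ R
  · rw [low_short z τ lo hc, map_one]
    unfold D
    rw [← Matrix.det_one (n := Fin (Fr.len c))]
    congr 1
    ext1 j k
    have hjR : (j : ℕ) < R := lt_of_lt_of_le j.2 hc
    obtain ⟨t, ht, hct⟩ := hp j j.2 hjR
    rw [Matrix.of_apply, J_of_lt hjR, ht, h.ent_inl, hct, Matrix.one_apply]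
    by_cases hjk : j = k
    · rw [if_pos hjk, if_pos (by rw [hjk]), map_one]
    · rw [if_neg hjk, if_neg (fun h => hjk (Fin.ext h.symm)), map_zero]
  · have hlen : R + (Fr.len c - R) = Fr.len c := by omega
    unfold D low
    rw [RingHom.map_det]
    set e0 : Fin R ⊕ Fin (Fr.len c - R) ≃ Fin (Fr.len c) :=
      finSumFinEquiv.trans (finCongr hlen) with he0
    have h0 : ∀ j : Fin R, ((e0 (Sum.inl j) : Fin (Fr.len c)) : ℕ) = j := by
      intro j
      rw [he0]
      simp
    have h1 : ∀ j : Fin (Fr.len c - R), ((e0 (Sum.inr j) : Fin (Fr.len c)) : ℕ) = R + j := by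
      intro j
      rw [he0]
      simp
    rw [← Matrix.det_submatrix_equiv_self e0]
    have h2 : ((Matrix.of fun j k : Fin (Fr.len c) =>
        ent R cls (fun _ => False) z (π (Fr.J c lo j)) k).submatrix e0 e0) =
        Matrix.fromBlocks 1 0 (Matrix.of fun (j : Fin (Fr.len c - R)) (k : Fin R) =>
          ent R cls (fun _ => False) z (Sum.inr (τ (lo j))) k)
          (Matrix.of fun (j k : Fin (Fr.len c - R)) => MvPolynomial.C (z (τ (lo j)) k)) := by
      ext1 j k
      rcases j with j | j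
      · obtain ⟨t, ht, hct⟩ := hp j (by omega) j.2
        have h2 : Fr.J c lo (e0 (Sum.inl j)) = Sum.inl t := by
          rw [J_of_lt (by rw [h0]; exact j.2), h0, ht]
        rcases k with k | k
        · rw [Matrix.submatrix_apply, Matrix.of_apply, h2, h.ent_inl,
            Matrix.fromBlocks_apply₁₁, Matrix.one_apply, h0, hct]
          by_cases hjk : j = k
          · rw [if_pos hjk, if_pos (by rw [hjk]), map_one]
          · rw [if_neg hjk, if_neg (fun h => hjk (Fin.ext h.symm)), map_zero]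
        · rw [Matrix.submatrix_apply, Matrix.of_apply, h2, h.ent_inl,
            Matrix.fromBlocks_apply₁₂, Matrix.zero_apply, h1, hct, if_neg (by omega), map_zero]
      · have h2 : Fr.J c lo (e0 (Sum.inr j)) = Sum.inr (lo j) := by
          rw [J_of_ge (by rw [h1]; omega)]
          congr 2
          ext
          simp only [h1]
          omega
        rcases k with k | k
        · rw [Matrix.submatrix_apply, Matrix.of_apply, h2,
            h.1, Matrix.fromBlocks_apply₂₁, Matrix.of_apply, h0]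
        · rw [Matrix.submatrix_apply, Matrix.of_apply, h2,
            h.1, Matrix.fromBlocks_apply₂₂, Matrix.of_apply]
          simp only [ent]
          rw [if_neg (by rw [h1]; omega), h1]
          congr 2
          omega
    rw [h2, Matrix.det_fromBlocks_zero₁₂, Matrix.det_one, one_mul]
    congr 1

/-- a column with a mark -/
lemma Typed.D_mark {π : Equiv.Perm (T ⊕ Fin N)} {τ : Equiv.Perm (Fin N)}
    (h : Typed cls π τ) (z : Fin N → ℕ → ℂ) {c : C} (lo : Fin (Fr.len c - R) → Fin N)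
    {i : ℕ} {q : Fin N} (hi : i < Fr.len c) (hc : Fr.len c ≤ R) (hq : Fr.srv c i = Sum.inr q)
    (hp : ∀ i' < Fr.len c, i' ≠ i → ∃ t, Fr.srv c i' = Sum.inl t ∧ cls t = i') :
    Fr.D z π c lo = X (i, τ q) := by
  unfold D
  rw [det_row ⟨i, hi⟩ (fun k => ent R cls (fun _ => False) z (Sum.inr (τ q)) k)]
  · simp only [ent]
    rw [if_pos (lt_of_lt_of_le hi hc)]
  · intro j hj k
    have hj' : (j : ℕ) ≠ i := fun h => hj (Fin.ext h)
    obtain ⟨t, ht, hct⟩ := hp j j.2 hj'
    rw [Matrix.of_apply, J_of_lt (lt_of_lt_of_le j.2 hc), ht, h.ent_inl, hct]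
    by_cases hkj : k = j
    · rw [if_pos hkj, if_pos (by rw [hkj]), map_one]
    · rw [if_neg hkj, if_neg (fun h => hkj (Fin.ext h)), map_zero]
  · intro k
    rw [Matrix.of_apply, J_of_lt (j := ⟨i, hi⟩) (lt_of_lt_of_le hi hc)]
    simp only
    rw [hq, h.1]

lemma Typed.D_eq {π : Equiv.Perm (T ⊕ Fin N)} {τ : Equiv.Perm (Fin N)}
    (h : Typed cls π τ) (z : Fin N → ℕ → ℂ) (c : C) (lo : Fin (Fr.len c - R) → Fin N) :
    Fr.D z π c lo = MvPolynomial.C (Fr.low z τ c lo) *
      monomial (∑ i ∈ Finset.range (min (Fr.len c) R), mex τ i (Fr.srv c i)) 1 := by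
  by_cases hm : ∃ i, i < Fr.len c ∧ i < R ∧ ∃ q, Fr.srv c i = Sum.inr q
  · obtain ⟨i, hi, hiR, q, hq⟩ := hm
    rcases Fr.serve c i hi hiR with ⟨t, ht, -⟩ | ⟨hc, -, hp⟩
    · rw [hq] at ht
      exact absurd ht (by simp)
    · rw [h.D_mark z lo hi hc hq hp, low_short z τ lo hc, map_one, one_mul,
        Finset.sum_eq_single i]
      · rw [hq]
        rfl
      · intro i' hi' hne
        rw [Finset.mem_range] at hi'
        obtain ⟨t, ht, -⟩ := hp i' (by omega) hne
        rw [ht]
        rfl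
      · intro hn
        exact absurd (Finset.mem_range.2 (by omega)) hn
  · have hp : ∀ i < Fr.len c, i < R → ∃ t, Fr.srv c i = Sum.inl t ∧ cls t = i := by
      intro i hi hiR
      rcases Fr.serve c i hi hiR with h1 | ⟨-, h1, -⟩
      · exact h1
      · exact absurd ⟨i, hi, hiR, h1⟩ hm
    rw [h.D_pure z lo hp, Finset.sum_eq_zero, monomial_zero', map_one, mul_one]
    intro i hi
    rw [Finset.mem_range] at hi
    obtain ⟨t, ht, -⟩ := hp i (by omega) (by omega)
    rw [ht]
    rfl

variable (Fr)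

/-- the exponent of the product of the marks -/
noncomputable def nu (τ : Equiv.Perm (Fin N)) : (ℕ × Fin N) →₀ ℕ :=
  ∑ c, ∑ i ∈ Finset.range (min (Fr.len c) R), mex τ i (Fr.srv c i)

lemma nu_apply (τ : Equiv.Perm (Fin N)) (i : ℕ) (q : Fin N) :
    Fr.nu τ (i, τ q) = Fr.typ q i := by
  unfold nu typ
  rw [Finsupp.finsetSum_apply, Finset.card_filter]
  apply Finset.sum_congr rfl
  intro c _
  rw [Finsupp.finsetSum_apply]
  have h1 : ∀ i', (mex τ i' (Fr.srv c i') : (ℕ × Fin N) →₀ ℕ) (i, τ q) =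
      if i' = i then (if Fr.srv c i = Sum.inr q then 1 else 0) else 0 := by
    intro i'
    unfold mex
    by_cases hi : i' = i
    · subst hi
      rw [if_pos rfl]
      rcases Fr.srv c i' with t | q'
      · simp
      · simp [Finsupp.single_apply]
    · rw [if_neg hi]
      rcases Fr.srv c i' with t | q'
      · simp
      · simp [hi]
  simp only [h1]
  rw [Finset.sum_ite_eq']
  by_cases hi : i < Fr.len c ∧ i < R
  · rw [if_pos (by rw [Finset.mem_range]; omega)]
    simp only [hi, true_and]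
  · rw [if_neg (by rw [Finset.mem_range]; omega), if_neg (by tauto)]

/-- the monomial of an exponent -/
noncomputable def mu (R : ℕ) (v : Fin N → ℕ → ℕ) : (ℕ × Fin N) →₀ ℕ :=
  ∑ i ∈ Finset.range R, ∑ q, Finsupp.single (i, q) (v q i)

lemma mu_apply (v : Fin N → ℕ → ℕ) (i : ℕ) (q : Fin N) :
    mu R v (i, q) = if i < R then v q i else 0 := by
  unfold mu
  rw [Finsupp.finsetSum_apply]
  have h1 : ∀ i' ∈ Finset.range R, (∑ q', Finsupp.single (i', q') (v q' i') :
      (ℕ × Fin N) →₀ ℕ) (i, q) = if i' = i then v q i else 0 := by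
    intro i' _
    rw [Finsupp.finsetSum_apply]
    by_cases hi : i' = i
    · subst hi
      rw [if_pos rfl, Finset.sum_eq_single q]
      · simp
      · intro q' _ hq
        rw [Finsupp.single_apply, if_neg (by simpa using hq)]
      · intro h
        exact absurd (Finset.mem_univ _) h
    · rw [if_neg hi]
      apply Finset.sum_eq_zero
      intro q' _
      rw [Finsupp.single_apply, if_neg]
      rintro h
      exact hi (congrArg Prod.fst h)
  rw [Finset.sum_congr rfl h1, Finset.sum_ite_eq']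
  simp only [Finset.mem_range]

lemma nu_eq_mu_iff (τ : Equiv.Perm (Fin N)) (v : Fin N → ℕ → ℕ) :
    Fr.nu τ = mu R v ↔ ∀ q, ∀ i < R, Fr.typ q i = v (τ q) i := by
  constructor
  · intro h q i hi
    have h1 := Fr.nu_apply τ i q
    rw [h, mu_apply, if_pos hi] at h1
    exact h1.symm
  · intro h
    ext ⟨i, q⟩
    obtain ⟨q', rfl⟩ := τ.surjective q
    rw [nu_apply, mu_apply]
    by_cases hi : i < R
    · rw [if_pos hi]
      exact h q' i hi
    · rw [if_neg hi]
      unfold typ
      rw [Finset.card_eq_zero, Finset.filter_eq_empty_iff]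
      intro c _ hc
      exact hi hc.1

lemma weight_mu (v : Fin N → ℕ → ℕ) {l : ℕ} (hl : l ≤ R) :
    Finsupp.weight (wt N l) (mu R v) = ∑ i ∈ Finset.range l, ∑ q, v q i := by
  unfold mu
  rw [map_sum]
  have h1 : ∀ i ∈ Finset.range R, Finsupp.weight (wt N l)
      (∑ q, Finsupp.single (i, q) (v q i) : (ℕ × Fin N) →₀ ℕ) =
      if i < l then ∑ q, v q i else 0 := by
    intro i _
    rw [map_sum]
    simp only [Finsupp.weight_single, wt, smul_eq_mul]
    by_cases hi : i < l
    · simp only [hi, if_true, mul_one]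
    · simp only [hi, if_false, mul_zero, Finset.sum_const_zero]
  rw [Finset.sum_congr rfl h1, ← Finset.sum_filter]
  apply Finset.sum_congr _ (fun _ _ => rfl)
  ext i
  simp only [Finset.mem_filter, Finset.mem_range]
  omega

lemma prod_D {π : Equiv.Perm (T ⊕ Fin N)} {τ : Equiv.Perm (Fin N)} (h : Typed cls π τ)
    (z : Fin N → ℕ → ℂ) (lo : (c : C) → Fin (Fr.len c - R) → Fin N) (v : Fin N → ℕ → ℕ) :
    coeff (mu R v) (∏ c, Fr.D z π c (lo c)) =
      if ∀ q, ∀ i < R, Fr.typ q i = v (τ q) i then ∏ c, Fr.low z τ c (lo c) else 0 := by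
  rw [Finset.prod_congr rfl (fun c _ => h.D_eq z c (lo c)), Finset.prod_mul_distrib,
    ← map_prod, ← monomial_sum_one, coeff_C_mul, coeff_monomial]
  change _ * (if Fr.nu τ = mu R v then (1 : ℂ) else 0) = _
  by_cases h1 : Fr.nu τ = mu R v
  · rw [if_pos h1, if_pos ((Fr.nu_eq_mu_iff τ v).1 h1), mul_one]
  · rw [if_neg h1, if_neg (fun h2 => h1 ((Fr.nu_eq_mu_iff τ v).2 h2)), mul_zero]

/-- the number of typed placements over `τ` does not depend on `τ` -/
lemma card_typed (cls : T → ℕ) (τ : Equiv.Perm (Fin N)) :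
    (Finset.univ.filter (fun π : Equiv.Perm (T ⊕ Fin N) => Typed cls π τ)).card =
      (Finset.univ.filter (fun π : Equiv.Perm (T ⊕ Fin N) => Typed cls π 1)).card := by
  refine Finset.card_bij' (fun π _ => π * Equiv.sumCongr 1 τ⁻¹)
    (fun π _ => π * Equiv.sumCongr 1 τ) ?_ ?_ ?_ ?_
  · intro π hπ
    rw [Finset.mem_filter] at hπ ⊢
    refine ⟨Finset.mem_univ _, fun q => ?_, fun t => ?_⟩
    · simp [hπ.2.1]
    · obtain ⟨t', ht', hc⟩ := hπ.2.2 t
      exact ⟨t', by simpa using ht', hc⟩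
  · intro π hπ
    rw [Finset.mem_filter] at hπ ⊢
    refine ⟨Finset.mem_univ _, fun q => ?_, fun t => ?_⟩
    · simp [hπ.2.1]
    · obtain ⟨t', ht', hc⟩ := hπ.2.2 t
      exact ⟨t', by simpa using ht', hc⟩
  · intro π _
    ext p
    rcases p with t | q <;> simp
  · intro π _
    ext p
    rcases p with t | q <;> simp

lemma card_typed_one (cls : T → ℕ) :
    (Finset.univ.filter (fun π : Equiv.Perm (T ⊕ Fin N) => Typed cls π 1)).card ≠ 0 := by
  rw [Finset.card_ne_zero]
  exact ⟨1, by
    rw [Finset.mem_filter]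
    exact ⟨Finset.mem_univ _, fun _ => rfl, fun t => ⟨t, rfl, rfl⟩⟩⟩

lemma Typed.unique {cls : T → ℕ} {π : Equiv.Perm (T ⊕ Fin N)} {τ τ' : Equiv.Perm (Fin N)}
    (h : Typed cls π τ) (h' : Typed cls π τ') : τ = τ' := by
  ext1 q
  have h1 := h.1 q
  rw [h'.1 q] at h1
  exact (Sum.inr_injective h1).symm

/-- The coefficient of the symmetrisation. -/
lemma sum_coeff (hcls : ∀ t, cls t < R) {t : ℕ → ℕ}
    {lo : (c : C) → Fin (Fr.len c - R) → Fin N} (hF : Fr.Forced t lo)
    (v : Fin N → ℕ → ℕ) (hv : ∀ i < R, ∑ q, v q i = t i) (z : Fin N → ℕ → ℂ) :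
    ∑ π : Equiv.Perm (T ⊕ Fin N), coeff (mu R v) (∏ c, Fr.D z π c (lo c)) =
      ((Finset.univ.filter (fun π : Equiv.Perm (T ⊕ Fin N) => Typed cls π 1)).card : ℂ) *
        ∑ τ ∈ Finset.univ.filter (fun τ : Equiv.Perm (Fin N) =>
          ∀ q, ∀ i < R, Fr.typ q i = v (τ q) i), ∏ c, Fr.low z τ c (lo c) := by
  have h1 : ∀ π : Equiv.Perm (T ⊕ Fin N), coeff (mu R v) (∏ c, Fr.D z π c (lo c)) =
      ∑ τ : Equiv.Perm (Fin N), if Typed cls π τ then
        (if ∀ q, ∀ i < R, Fr.typ q i = v (τ q) i then ∏ c, Fr.low z τ c (lo c) else 0)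
        else 0 := by
    intro π
    by_cases hT : ∃ τ, Typed cls π τ
    · obtain ⟨τ, hτ⟩ := hT
      rw [Finset.sum_eq_single τ, if_pos hτ, Fr.prod_D hτ]
      · intro τ' _ hne
        rw [if_neg (fun h => hne (h.unique hτ))]
      · intro h
        exact absurd (Finset.mem_univ _) h
    · rw [Finset.sum_eq_zero]
      · by_contra hne
        apply hT
        apply Fr.typed_of_ne hcls hF z π _ hne
        intro l hl
        rw [weight_mu v hl]
        apply (Finset.sum_congr rfl _).le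
        intro i hi
        rw [Finset.mem_range] at hi
        exact hv i (by omega)
      · intro τ _
        rw [if_neg (fun h => hT ⟨τ, h⟩)]
  rw [Finset.sum_congr rfl (fun π _ => h1 π), Finset.sum_comm, Finset.mul_sum,
    Finset.sum_filter]
  apply Finset.sum_congr rfl
  intro τ _
  rw [← Finset.sum_filter, Finset.sum_const, card_typed, nsmul_eq_mul]
  split_ifs with h2
  · rfl
  · rw [mul_zero]

end Top7

/-- **The algebra theorem, coefficient form.** If a linear combination of symmetrised fillings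
vanishes, then so does, for every vector `v` of types with the right totals, the combination of
the lower products, summed over the permutations which turn the types into `v`. -/
theorem coeff_form {m R N b : ℕ} {T : Type} [Fintype T] {cls : T → ℕ} (hcls : ∀ t, cls t < R)
    {X : Type*} (C : X → Type) [∀ x, Fintype (C x)] (Fr : ∀ x, Top7 m R N T cls (C x))
    (lo : ∀ x, (c : C x) → Fin ((Fr x).len c - R) → Fin N) (t : ℕ → ℕ)
    (hF : ∀ x, (Fr x).Forced t (lo x)) (v : Fin N → ℕ → ℕ) (hv : ∀ i < R, ∑ q, v q i = t i)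
    (e : Fin b ≃ T ⊕ Fin N) (s : Finset X) (g : X → ℂ)
    (h : ∑ x ∈ s, g x • (fun p : Fin b → Fin m → ℂ => ∑ σ : Equiv.Perm (Fin b),
      (∏ c, dt ((Fr x).len_le c) (fun j => e.symm ((Fr x).J c (lo x c) j)))
        (fun j => p (σ j))) = 0) :
    ∑ x ∈ s, g x • (fun z : Fin N → Fin (m - R) → ℂ =>
      ∑ τ ∈ Finset.univ.filter (fun τ : Equiv.Perm (Fin N) =>
        ∀ q, ∀ i < R, (Fr x).typ q i = v (τ q) i),
        (∏ c, dt (B := N) (m := m - R) (Nat.sub_le_sub_right ((Fr x).len_le c) R) (lo x c))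
          (fun q => z (τ q))) = 0 := by
  funext z'
  set z : Fin N → ℕ → ℂ := fun q i => if h : i < m - R then z' q ⟨i, h⟩ else 0 with hz
  have hlow : ∀ (x : X) (τ : Equiv.Perm (Fin N)), (∏ c, dt (B := N) (m := m - R)
      (Nat.sub_le_sub_right ((Fr x).len_le c) R) (lo x c)) (fun q => z' (τ q)) =
      ∏ c, (Fr x).low z τ c (lo x c) := by
    intro x τ
    rw [Finset.prod_apply]
    apply Finset.prod_congr rfl
    intro c _
    unfold dt Top7.low
    congr 1
    ext j k
    rw [Matrix.of_apply, Matrix.of_apply, hz]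
    have h1 : (k : ℕ) < m - R := by
      have := (Fr x).len_le c
      omega
    simp only [h1, dif_pos]
    rfl
  set P : MvPolynomial (ℕ × Fin N) ℂ := ∑ x ∈ s, MvPolynomial.C (g x) *
    ∑ π : Equiv.Perm (T ⊕ Fin N), ∏ c, (Fr x).D z π c (lo x c) with hP
  have hP0 : P = 0 := by
    apply MvPolynomial.funext
    intro y
    rw [map_zero, hP, map_sum]
    have h1 := congrFun h (fun j i => eval y (ent R cls (fun _ => False) z (e j) i))
    rw [Finset.sum_apply, Pi.zero_apply] at h1
    rw [← h1]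
    apply Finset.sum_congr rfl
    intro x _
    rw [map_mul, eval_C, Pi.smul_apply, smul_eq_mul, map_sum]
    congr 1
    rw [← Equiv.sum_comp (Equiv.permCongr e)]
    apply Finset.sum_congr rfl
    intro σ _
    rw [map_prod, Finset.prod_apply]
    apply Finset.prod_congr rfl
    intro c _
    unfold Top7.D dt
    rw [RingHom.map_det]
    congr 1
  have h2 : coeff (Top7.mu R v) P = 0 := by rw [hP0, coeff_zero]
  rw [hP, coeff_sum] at h2
  have h3 : ∀ x ∈ s, coeff (Top7.mu R v) (MvPolynomial.C (g x) *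
      ∑ π : Equiv.Perm (T ⊕ Fin N), ∏ c, (Fr x).D z π c (lo x c)) =
      ((Finset.univ.filter (fun π : Equiv.Perm (T ⊕ Fin N) => Top7.Typed cls π 1)).card : ℂ) *
        (g x * ∑ τ ∈ Finset.univ.filter (fun τ : Equiv.Perm (Fin N) =>
          ∀ q, ∀ i < R, (Fr x).typ q i = v (τ q) i), ∏ c, (Fr x).low z τ c (lo x c)) := by
    intro x _
    rw [coeff_C_mul, coeff_sum, (Fr x).sum_coeff hcls (hF x) v hv]
    ring
  rw [Finset.sum_congr rfl h3, ← Finset.mul_sum, mul_eq_zero] at h2
  rw [Finset.sum_apply, Pi.zero_apply]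
  rcases h2 with h2 | h2
  · exfalso
    rw [Nat.cast_eq_zero] at h2
    exact Top7.card_typed_one cls h2
  · rw [← h2]
    apply Finset.sum_congr rfl
    intro x _
    rw [Pi.smul_apply, smul_eq_mul]
    congr 1
    apply Finset.sum_congr rfl
    intro τ _
    exact hlow x τ

/-- **The algebra theorem, families of frames with inequivalent types.** -/
theorem linInd7 {m R N b : ℕ} {T : Type} [Fintype T] {cls : T → ℕ} (hcls : ∀ t, cls t < R)
    {U : Type*} {ι : U → Type*} (C : U → Type) [∀ u, Fintype (C u)]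
    (Fr : ∀ u, Top7 m R N T cls (C u))
    (lo : ∀ u, ι u → (c : C u) → Fin ((Fr u).len c - R) → Fin N) (t : ℕ → ℕ)
    (hF : ∀ u β, (Fr u).Forced t (lo u β)) (ht : ∀ u, ∀ i < R, ∑ q, (Fr u).typ q i = t i)
    (hU : ∀ u u', (∃ σ : Equiv.Perm (Fin N), ∀ q, ∀ i < R,
      (Fr u).typ q i = (Fr u').typ (σ q) i) → u = u')
    (e : Fin b ≃ T ⊕ Fin N)
    (hli : ∀ u, LinearIndependent ℂ (fun (β : ι u) (z : Fin N → Fin (m - R) → ℂ) =>
      ∑ τ ∈ Finset.univ.filter (fun τ : Equiv.Perm (Fin N) =>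
        ∀ q, ∀ i < R, (Fr u).typ q i = (Fr u).typ (τ q) i),
        (∏ c, dt (B := N) (m := m - R) (Nat.sub_le_sub_right ((Fr u).len_le c) R) (lo u β c))
          (fun q => z (τ q)))) :
    LinearIndependent ℂ (fun (x : Σ u, ι u) (p : Fin b → Fin m → ℂ) =>
      ∑ σ : Equiv.Perm (Fin b),
        (∏ c, dt ((Fr x.1).len_le c) (fun j => e.symm ((Fr x.1).J c (lo x.1 x.2 c) j)))
          (fun j => p (σ j))) := by
  rw [linearIndependent_iff']
  intro s g hg x0 hx0
  obtain ⟨u0, β0⟩ := x0
  have h1 := coeff_form hcls (fun x : Σ u, ι u => C x.1) (fun x => Fr x.1)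
    (fun x => lo x.1 x.2) t (fun x => hF x.1 x.2) (Fr u0).typ (ht u0) e s g hg
  have hio : Set.InjOn (fun β : ι u0 => (⟨u0, β⟩ : Σ u, ι u))
      ((fun β : ι u0 => (⟨u0, β⟩ : Σ u, ι u)) ⁻¹' (s : Set (Σ u, ι u))) := by
    intro β _ β' _ h
    simpa using h
  obtain ⟨s', hs'⟩ : ∃ s' : Finset (ι u0), ∀ β, β ∈ s' ↔ (⟨u0, β⟩ : Σ u, ι u) ∈ s :=
    ⟨s.preimage _ hio, fun β => Finset.mem_preimage⟩
  have h2 := linearIndependent_iff'.1 (hli u0) s' (fun β => g ⟨u0, β⟩) ?_ β0 ((hs' β0).2 hx0)
  · exact h2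
  · rw [← h1]
    symm
    rw [← Finset.sum_subset (Finset.filter_subset (fun x : Σ u, ι u => x.1 = u0) s)]
    · symm
      apply Finset.sum_bij (fun (β : ι u0) _ => (⟨u0, β⟩ : Σ u, ι u))
      · intro β hβ
        rw [Finset.mem_filter]
        exact ⟨(hs' β).1 hβ, rfl⟩
      · intro β _ β' _ h
        simpa using h
      · rintro ⟨u, β⟩ hx
        rw [Finset.mem_filter] at hx
        obtain ⟨hx1, hx2⟩ := hx
        simp only at hx2
        subst hx2
        exact ⟨β, (hs' β).2 hx1, rfl⟩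
      · intro β _
        rfl
    · rintro ⟨u, β⟩ hx hn
      have hne : u ≠ u0 := by
        intro h
        apply hn
        rw [Finset.mem_filter]
        exact ⟨hx, h⟩
      have h3 : Finset.univ.filter (fun τ : Equiv.Perm (Fin N) =>
          ∀ q, ∀ i < R, (Fr u).typ q i = (Fr u0).typ (τ q) i) = ∅ := by
        rw [Finset.filter_eq_empty_iff]
        intro τ _ hτ
        exact hne (hU u u0 ⟨τ, hτ⟩)
      simp only [h3, Finset.sum_empty]
      exact smul_zero _

/-- The case of pairwise different types inside every frame: no symmetrisation is left. -/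
theorem linInd7_inj {m R N b : ℕ} {T : Type} [Fintype T] {cls : T → ℕ} (hcls : ∀ t, cls t < R)
    {U : Type*} {ι : U → Type*} (C : U → Type) [∀ u, Fintype (C u)]
    (Fr : ∀ u, Top7 m R N T cls (C u))
    (lo : ∀ u, ι u → (c : C u) → Fin ((Fr u).len c - R) → Fin N) (t : ℕ → ℕ)
    (hF : ∀ u β, (Fr u).Forced t (lo u β)) (ht : ∀ u, ∀ i < R, ∑ q, (Fr u).typ q i = t i)
    (hU : ∀ u u', (∃ σ : Equiv.Perm (Fin N), ∀ q, ∀ i < R,
      (Fr u).typ q i = (Fr u').typ (σ q) i) → u = u')
    (hinj : ∀ u q q', (∀ i < R, (Fr u).typ q i = (Fr u).typ q' i) → q = q')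
    (e : Fin b ≃ T ⊕ Fin N)
    (hli : ∀ u, LinearIndependent ℂ (fun β : ι u => ∏ c, dt (B := N) (m := m - R)
      (Nat.sub_le_sub_right ((Fr u).len_le c) R) (lo u β c))) :
    LinearIndependent ℂ (fun (x : Σ u, ι u) (p : Fin b → Fin m → ℂ) =>
      ∑ σ : Equiv.Perm (Fin b),
        (∏ c, dt ((Fr x.1).len_le c) (fun j => e.symm ((Fr x.1).J c (lo x.1 x.2 c) j)))
          (fun j => p (σ j))) := by
  apply linInd7 hcls C Fr lo t hF ht hU e
  intro u
  have h1 : Finset.univ.filter (fun τ : Equiv.Perm (Fin N) =>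
      ∀ q, ∀ i < R, (Fr u).typ q i = (Fr u).typ (τ q) i) = {1} := by
    ext τ
    rw [Finset.mem_filter, Finset.mem_singleton]
    constructor
    · rintro ⟨-, h⟩
      ext1 q
      exact (hinj u q (τ q) (h q)).symm
    · rintro rfl
      exact ⟨Finset.mem_univ _, fun _ _ _ => rfl⟩
  simp only [h1, Finset.sum_singleton, Equiv.Perm.one_apply]
  exact hli u

/-- One frame with all types equal: the full symmetrisation over the free letters is left. -/
theorem linInd7_const {m R N b : ℕ} {T : Type} [Fintype T] {cls : T → ℕ}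
    (hcls : ∀ t, cls t < R) {ι : Type*} {C : Type} [Fintype C] (Fr : Top7 m R N T cls C)
    (lo : ι → (c : C) → Fin (Fr.len c - R) → Fin N) (t : ℕ → ℕ)
    (hF : ∀ β, Fr.Forced t (lo β)) (ht : ∀ i < R, ∑ q, Fr.typ q i = t i)
    (hconst : ∀ q q', ∀ i < R, Fr.typ q i = Fr.typ q' i)
    (e : Fin b ≃ T ⊕ Fin N)
    (hli : LinearIndependent ℂ (fun (β : ι) (z : Fin N → Fin (m - R) → ℂ) =>
      ∑ τ : Equiv.Perm (Fin N), (∏ c, dt (B := N) (m := m - R)
        (Nat.sub_le_sub_right (Fr.len_le c) R) (lo β c)) (fun q => z (τ q)))) :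
    LinearIndependent ℂ (fun (β : ι) (p : Fin b → Fin m → ℂ) => ∑ σ : Equiv.Perm (Fin b),
      (∏ c, dt (Fr.len_le c) (fun j => e.symm (Fr.J c (lo β c) j))) (fun j => p (σ j))) := by
  have h1 := linInd7 (U := Unit) (ι := fun _ => ι) hcls (fun _ => C) (fun _ => Fr)
    (fun _ => lo) t (fun _ => hF) (fun _ => ht) (fun _ _ _ => rfl) e (fun _ => by
      have h2 : Finset.univ.filter (fun τ : Equiv.Perm (Fin N) =>
          ∀ q, ∀ i < R, Fr.typ q i = Fr.typ (τ q) i) = Finset.univ := by
        rw [Finset.filter_true_of_mem]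
        intro τ _ q i hi
        exact hconst _ _ i hi
      simp only [h2]
      exact hli)
  exact h1.comp (fun β => (⟨(), β⟩ : Σ _ : Unit, ι)) (fun β β' h => by simpa using h)

end Vale.Agent.P181.T7
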