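import Vale.Agent.P181.H914.Value
import Mathlib.Algebra.MvPolynomial.Funext

set_option autoImplicit false

open MvPolynomial
open scoped Classical

namespace Vale.Agent.P181.T4

open Vale.Agent.P181.FR Vale.Agent.P181.H188W

namespace Frame

variable {m R N : ℕ} {T C : Type} [Fintype T] [Fintype C] (Fr : Frame m R N T C)

variable {Fr} in
lemma Typed.SS_eq {π : Equiv.Perm (T ⊕ Fin N)} {τ : Equiv.Perm (Fin N)} (h : Fr.Typed π τ) :
    SS π = Finset.univ.filter (fun p : T ⊕ Fin N => p.isRight = true) := by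
  ext p
  simp only [SS, Finset.mem_filter, Finset.mem_univ, true_and]
  rcases p with t | q
  · obtain ⟨t', ht, -⟩ := h.2 t
    rw [ht]
    simp
  · rw [h.1]
    simp

lemma typed_one : Fr.Typed 1 1 :=
  ⟨fun _ => rfl, fun t => ⟨t, rfl, rfl, Iff.rfl⟩⟩

lemma coeff_mu (z : Fin N → ℕ → ℂ) (π : Equiv.Perm (T ⊕ Fin N))
    (lo : (c : C) → Fin (Fr.len c - R) → Fin N) :
    coeff Fr.mu (∏ c, Fr.D z π c (lo c)) =
      if Fr.Typed π 1 then (∏ c, Fr.kap c) * ∏ c, Fr.low z 1 c (lo c) else 0 := by
  by_cases hT : Fr.Typed π 1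
  · rw [if_pos hT, Fr.coeff_prod, if_pos hT.SS_eq, Fr.coeff_typed hT, if_pos rfl]
  · rw [if_neg hT]
    by_contra hne
    rw [Fr.coeff_prod] at hne
    split_ifs at hne with hS
    · have hD : ∀ c, Fr.D z π c (lo c) ≠ 0 := by
        intro c h0
        apply hne
        by_cases hc : Fr.len c ≤ R
        · rw [Finset.prod_eq_zero (Finset.mem_filter.2 ⟨Finset.mem_univ c, hc⟩) h0, coeff_zero,
            zero_mul]
        · rw [Finset.prod_eq_zero (i := c)
            (s := Finset.univ.filter (fun c => ¬ Fr.len c ≤ R))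
            (Finset.mem_filter.2 ⟨Finset.mem_univ c, hc⟩) (by rw [h0, coeff_zero]), mul_zero]
      obtain ⟨τ, hτ⟩ := Fr.typed_of_ne z π lo hS hD
      rw [Fr.coeff_typed hτ] at hne
      split_ifs at hne with h1
      · subst h1
        exact hT hτ
      · exact hne rfl
    · exact hne rfl

/-- **(C1)** Products of lower minors which are linearly independent give, through the frame,
highest weight functions whose symmetrisations are linearly independent. -/
theorem linInd {b : ℕ} (e : Fin b ≃ T ⊕ Fin N) {ι : Type*}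
    (lo : ι → (c : C) → Fin (Fr.len c - R) → Fin N)
    (hli : LinearIndependent ℂ (fun β : ι => ∏ c, dt (B := N) (m := m - R)
      (Nat.sub_le_sub_right (Fr.len_le c) R) (lo β c))) :
    LinearIndependent ℂ (fun (β : ι) (p : Fin b → Fin m → ℂ) => ∑ s : Equiv.Perm (Fin b),
      (∏ c, dt (Fr.len_le c) (fun j => e.symm (Fr.J c (lo β c) j))) (fun j => p (s j))) := by
  rw [linearIndependent_iff'] at hli ⊢
  intro s g hg
  apply hli s g
  funext z'
  set z : Fin N → ℕ → ℂ := fun q i => if h : i < m - R then z' q ⟨i, h⟩ else 0 with hz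
  have hlow : ∀ (β : ι), (∏ c, dt (B := N) (m := m - R)
      (Nat.sub_le_sub_right (Fr.len_le c) R) (lo β c)) z' = ∏ c, Fr.low z 1 c (lo β c) := by
    intro β
    rw [Finset.prod_apply]
    apply Finset.prod_congr rfl
    intro c _
    unfold dt low
    congr 1
    ext j k
    rw [Matrix.of_apply, Matrix.of_apply, hz]
    have h1 : (k : ℕ) < m - R := by
      have := Fr.len_le c
      omega
    simp only [Equiv.Perm.one_apply, h1, dif_pos]
    rfl
  set P : MvPolynomial (ℕ × Fin N) ℂ := ∑ β ∈ s, MvPolynomial.C (g β) *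
    ∑ π : Equiv.Perm (T ⊕ Fin N), ∏ c, Fr.D z π c (lo β c) with hP
  have hP0 : P = 0 := by
    apply MvPolynomial.funext
    intro x
    rw [map_zero, hP, map_sum]
    have h1 := congrFun hg (fun j i => eval x (ent R Fr.cls Fr.mix z (e j) i))
    rw [Finset.sum_apply, Pi.zero_apply] at h1
    rw [← h1]
    apply Finset.sum_congr rfl
    intro β _
    rw [map_mul, eval_C, Pi.smul_apply, smul_eq_mul, map_sum]
    congr 1
    rw [← Equiv.sum_comp (Equiv.permCongr e)]
    apply Finset.sum_congr rfl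
    intro σ _
    rw [map_prod, Finset.prod_apply]
    apply Finset.prod_congr rfl
    intro c _
    unfold D dt
    rw [RingHom.map_det]
    congr 1
  have h2 : coeff Fr.mu P = 0 := by rw [hP0, coeff_zero]
  rw [hP, coeff_sum] at h2
  have h3 : ∀ β ∈ s, coeff Fr.mu (MvPolynomial.C (g β) *
      ∑ π : Equiv.Perm (T ⊕ Fin N), ∏ c, Fr.D z π c (lo β c)) =
      (((Finset.univ.filter (fun π : Equiv.Perm (T ⊕ Fin N) => Fr.Typed π 1)).card : ℂ) *
        ∏ c, Fr.kap c) * (g β * ∏ c, Fr.low z 1 c (lo β c)) := by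
    intro β _
    rw [coeff_C_mul, coeff_sum]
    rw [Finset.sum_congr rfl (fun π _ => Fr.coeff_mu z π (lo β)), ← Finset.sum_filter,
      Finset.sum_const, nsmul_eq_mul]
    ring
  rw [Finset.sum_congr rfl h3, ← Finset.mul_sum, mul_eq_zero, mul_eq_zero] at h2
  rw [Finset.sum_apply, Pi.zero_apply]
  rcases h2 with (h2 | h2) | h2
  · exfalso
    rw [Nat.cast_eq_zero, Finset.card_eq_zero, Finset.filter_eq_empty_iff] at h2
    exact h2 (Finset.mem_univ 1) Fr.typed_one
  · exfalso
    rw [Finset.prod_eq_zero_iff] at h2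
    obtain ⟨c, -, hc⟩ := h2
    exact Fr.kap_ne c hc
  · rw [← h2]
    apply Finset.sum_congr rfl
    intro β _
    rw [Pi.smul_apply, smul_eq_mul, hlow]

end Frame

end Vale.Agent.P181.T4
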