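import Mathlib.Data.Sym.Card
import Mathlib.Data.Fintype.BigOperators
import Mathlib.Data.Nat.Choose.Basic
import Mathlib.Algebra.BigOperators.Fin
import Mathlib.Algebra.BigOperators.Ring.Finset
import Mathlib.Tactic

set_option autoImplicit false

open Finset

namespace Vale.Agent.P181.H914

/-- `N` distinct monomials of prescribed degrees `k` or `k + 1` in `R1` variables. -/
theorem exists_mono {N R1 k : ℕ} (hR1 : 0 < R1) (hN : N ≤ (R1 + k - 1).choose k)
    (kq : Fin N → ℕ) (hk : ∀ q, kq q = k ∨ kq q = k + 1) :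
    ∃ M : Fin N → ℕ → ℕ, Function.Injective M ∧ (∀ q, ∑ i ∈ range R1, M q i = kq q) ∧
      ∀ q i, R1 ≤ i → M q i = 0 := by
  classical
  have hcard : Fintype.card (Fin N) ≤ Fintype.card (Sym (Fin R1) k) := by
    rw [Fintype.card_fin, Sym.card_sym_eq_choose, Fintype.card_fin]
    exact hN
  obtain ⟨s⟩ := Function.Embedding.nonempty_of_card_le hcard
  set M0 : Fin N → ℕ → ℕ := fun q i =>
    if h : i < R1 then Multiset.count (⟨i, h⟩ : Fin R1) (s q : Multiset (Fin R1)) else 0 with hM0
  have hsum0 : ∀ q, ∑ i ∈ range R1, M0 q i = k := by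
    intro q
    rw [← Fin.sum_univ_eq_sum_range (fun i => M0 q i)]
    have h1 : ∀ i : Fin R1, M0 q i = Multiset.count i (s q : Multiset (Fin R1)) := by
      intro i
      rw [hM0]
      simp only [i.2, dif_pos]
    rw [Finset.sum_congr rfl (fun i _ => h1 i), Multiset.sum_count_eq_card (fun a _ => mem_univ a)]
    exact (s q).2
  set E : Fin N → ℕ → ℕ := fun q i => if i = 0 ∧ kq q = k + 1 then 1 else 0 with hE
  have hsumE : ∀ q, ∑ i ∈ range R1, E q i = if kq q = k + 1 then 1 else 0 := by
    intro q
    rw [Finset.sum_eq_single 0]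
    · rw [hE]
      simp
    · intro b _ hb
      rw [hE]
      simp [hb]
    · intro h
      exact absurd (mem_range.2 hR1) h
  have hsum : ∀ q, ∑ i ∈ range R1, (M0 q i + E q i) = kq q := by
    intro q
    rw [Finset.sum_add_distrib, hsum0, hsumE]
    rcases hk q with h | h
    · rw [if_neg (by omega), h, add_zero]
    · rw [if_pos h, h]
  refine ⟨fun q i => M0 q i + E q i, ?_, hsum, ?_⟩
  · intro q q' h
    have h1 : kq q = kq q' := by
      rw [← hsum q, ← hsum q']
      exact Finset.sum_congr rfl (fun i _ => congrFun h i)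
    have h2 : ∀ i, M0 q i = M0 q' i := by
      intro i
      have h3 : M0 q i + E q i = M0 q' i + E q' i := congrFun h i
      have h4 : E q i = E q' i := by
        rw [hE]
        simp only [h1]
      omega
    apply s.injective
    apply Sym.coe_injective
    rw [Multiset.ext]
    intro i
    have h5 := h2 i
    rw [hM0] at h5
    simpa only [i.2, dif_pos] using h5
  · intro q i hi
    have h1 : M0 q i = 0 := by
      rw [hM0]
      simp only
      rw [dif_neg (by omega)]
    have h2 : E q i = 0 := by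
      rw [hE]
      simp only
      rw [if_neg (by omega)]
    simp only [h1, h2, add_zero]

/-- The table of the `A`-blocks: columns `A ⊆ avail`, row `bi c`, point `bq c`. -/
theorem exists_blocks {N R1 : ℕ} (hN : 0 < N) (hR1 : 0 < R1) (M : Fin N → ℕ → ℕ) (avail : Finset ℕ)
    (h : ∑ q, ∑ i ∈ range R1, M q i ≤ avail.card) :
    ∃ (A : Finset ℕ) (bi : ℕ → ℕ) (bq : ℕ → Fin N), A ⊆ avail ∧
      A.card = ∑ q, ∑ i ∈ range R1, M q i ∧ (∀ c, bi c < R1) ∧
      ∀ q i, i < R1 → (A.filter (fun c => bi c = i ∧ bq c = q)).card = M q i := by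
  classical
  let I : Type := Σ q : Fin N, Σ i : Fin R1, Fin (M q i)
  have hcI : Fintype.card I = ∑ q, ∑ i ∈ range R1, M q i := by
    rw [Fintype.card_sigma]
    apply Finset.sum_congr rfl
    intro q _
    rw [Fintype.card_sigma, ← Fin.sum_univ_eq_sum_range (fun i => M q i)]
    simp
  have hcard : Fintype.card I ≤ Fintype.card avail := by
    rw [hcI, Fintype.card_coe]
    exact h
  obtain ⟨g⟩ := Function.Embedding.nonempty_of_card_le hcard
  set f : I → ℕ := fun x => (g x : ℕ) with hf
  have hfi : Function.Injective f := fun x y hxy => g.injective (Subtype.ext hxy)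
  refine ⟨univ.image f, Function.extend f (fun x => (x.2.1 : ℕ)) (fun _ => 0),
    Function.extend f (fun x => x.1) (fun _ => ⟨0, hN⟩), ?_, ?_, ?_, ?_⟩
  · intro c hc
    rw [mem_image] at hc
    obtain ⟨x, -, rfl⟩ := hc
    exact (g x).2
  · rw [card_image_of_injective _ hfi, card_univ, hcI]
  · intro c
    by_cases hc : ∃ x, f x = c
    · obtain ⟨x, rfl⟩ := hc
      rw [hfi.extend_apply]
      exact x.2.1.2
    · rw [Function.extend_apply' _ _ _ hc]
      exact hR1
  · intro q i hi
    rw [filter_image, card_image_of_injective _ hfi]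
    simp only [hfi.extend_apply]
    rw [card_filter]
    rw [Fintype.sum_sigma, Finset.sum_eq_single q]
    · rw [Fintype.sum_sigma, Finset.sum_eq_single (⟨i, hi⟩ : Fin R1)]
      · simp
      · intro j _ hj
        apply Finset.sum_eq_zero
        intro l _
        rw [if_neg]
        rintro ⟨h1, -⟩
        exact hj (Fin.ext h1)
      · intro h
        exact absurd (mem_univ _) h
    · intro q' _ hq'
      apply Finset.sum_eq_zero
      intro x _
      rw [if_neg]
      rintro ⟨-, h1⟩
      exact hq' h1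
    · intro h
      exact absurd (mem_univ _) h

/-- **(AB)** the table of the `A`-blocks for `N` distinct monomials of degrees `k`, `k + 1`. -/
theorem ab (N k R1 : ℕ) (hN : N ≤ (R1 + k - 1).choose k) (kq : Fin N → ℕ)
    (hkq : ∀ q, kq q = k ∨ kq q = k + 1) (P : Finset ℕ) (hP : ∑ q, kq q ≤ P.card)
    (hR1 : 1 ≤ R1) (hN0 : 0 < N) :
    ∃ (B : Finset ℕ) (bi : ℕ → ℕ) (bq : ℕ → Fin N), B ⊆ P ∧ (∀ c, bi c < R1) ∧
      (∀ q, (B.filter (fun c => bq c = q)).card = kq q) ∧
      Function.Injective (fun (q : Fin N) (i : ℕ) =>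
        (B.filter (fun c => bi c = i ∧ bq c = q)).card) := by
  classical
  obtain ⟨M, hMi, hMs, hM0⟩ := exists_mono (by omega) hN kq hkq
  obtain ⟨B, bi, bq, hBP, hBc, hbi, hcnt⟩ := exists_blocks hN0 (by omega) M P
    (le_of_eq_of_le (Finset.sum_congr rfl (fun q _ => hMs q)) hP)
  have hcnt' : ∀ (q : Fin N) (i : ℕ), (B.filter (fun c => bi c = i ∧ bq c = q)).card = M q i := by
    intro q i
    by_cases hi : i < R1
    · exact hcnt q i hi
    · rw [hM0 q i (by omega), card_eq_zero, filter_eq_empty_iff]
      rintro c _ ⟨h1, -⟩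
      have := hbi c
      omega
  refine ⟨B, bi, bq, hBP, hbi, ?_, ?_⟩
  · intro q
    have hmap : ∀ c ∈ B.filter (fun c => bq c = q), bi c ∈ range R1 :=
      fun c _ => mem_range.2 (hbi c)
    rw [Finset.card_eq_sum_card_fiberwise hmap, ← hMs q]
    apply Finset.sum_congr rfl
    intro i _
    rw [filter_filter, ← hcnt' q i]
    congr 1
    ext c
    simp only [mem_filter]
    tauto
  · intro q q' h
    apply hMi
    funext i
    have h1 := congrFun h i
    simp only at h1
    rw [hcnt', hcnt'] at h1
    exact h1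

end Vale.Agent.P181.H914
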