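import Vale.Agent.P181.H162.Table
import Vale.Agent.P181.T4.Typ
import Vale.Agent.P181.H914.Blocks

/-!
# P181 (T4), (C2b): the numbers of the frame
-/

set_option autoImplicit false

namespace Vale.Agent.P181.H914

open Finset Vale.Agent.P181.T4 Vale.Agent.P181.H162

lemma ex_antitone {a : ℕ} {lam : Fin a → ℕ} (h : Antitone lam) : Antitone (ex lam) := by
  intro i j hij
  unfold ex
  by_cases hj : j < a
  · rw [dif_pos hj, dif_pos (by omega)]
    exact h hij
  · rw [dif_neg hj]
    exact Nat.zero_le _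

lemma sum_ex {a : ℕ} (lam : Fin a → ℕ) : ∑ i ∈ range a, ex lam i = ∑ i, lam i := by
  rw [← Fin.sum_univ_eq_sum_range (fun i => ex lam i)]
  apply Finset.sum_congr rfl
  intro i _
  unfold ex
  rw [dif_pos i.2]

/-- (C2b): the numbers. -/
theorem exists_par {a b R R1 k K L : ℕ} {lam : Fin a → ℕ} (hanti : Antitone lam)
    (hsum : ∑ i, lam i = a * b) (hT : Typ a b R R1 K L lam) (hk : 2 * k + 10 ≤ a)
    (hK : 2 * k + 11 ≤ K) (hb : a + R * (L / a + 3) ≤ b) (hmon : b ≤ (R1 + k - 1).choose k) :
    ∃ P : Par, P.a = a ∧ P.S + 1 = R ∧ P.lam = ex lam ∧ P.T + P.N = b ∧ 0 < P.N ∧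
      b ≤ P.N + R * (L / a + 3) ∧ ∀ q q', ∑ i, P.M q i ≤ ∑ i, P.M q' i + 1 := by
  obtain ⟨hT1, hT2, hT3, hT4⟩ := hT
  have hex := ex_antitone hanti
  have hab : a ≤ b := le_trans (Nat.le_add_right _ _) hb
  -- `R1 ≥ 1`
  obtain ⟨r, rfl⟩ : ∃ r, R1 = r + 1 := by
    apply Nat.exists_eq_succ_of_ne_zero
    rintro rfl
    rcases Nat.eq_zero_or_pos k with h | h
    · subst h
      simp at hmon
      omega
    · rw [Nat.choose_eq_zero_of_lt (by omega)] at hmon
      omega
  -- `R1 < R`
  have hKb : 0 < K * b := Nat.mul_pos (by omega) (by omega)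
  have hR1R : r + 1 < R := by
    by_contra hn
    have := hex (show R ≤ r + 1 by omega)
    omega
  -- `R < a`
  have hKab : K * (a + b) = K * a + K * b := Nat.mul_add _ _ _
  have hRa : R < a := by
    by_contra hn
    have h1 : ex lam R = 0 := by
      unfold ex
      rw [dif_neg hn]
    omega
  obtain ⟨S, rfl⟩ : ∃ S, R = S + 1 := ⟨R - 1, by omega⟩
  set x : ℕ := L / a with hx
  -- the sums
  set s : ℕ := ∑ i ∈ range (S + 1), ex lam i with hs
  have hsm : s ≤ a * b := by
    rw [hs, ← hsum, ← sum_ex]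
    exact Finset.sum_le_sum_of_subset (range_subset_range.2 hRa.le)
  obtain ⟨m, hm⟩ : ∃ m, s + m = a * b := ⟨a * b - s, by omega⟩
  have hsL : s ≤ (S + 1) * L := by
    have h1 : s ≤ (range (S + 1)).card • L := by
      rw [hs]
      apply Finset.sum_le_card_nsmul
      intro i _
      exact le_trans (hex (Nat.zero_le i)) hT1
    rwa [card_range, smul_eq_mul] at h1
  have hsK : K * (a + b) ≤ s := by
    have h1 : ex lam 0 ≤ s := by
      rw [hs]
      exact Finset.single_le_sum (f := fun i => ex lam i) (fun i _ => Nat.zero_le _)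
        (mem_range.2 (Nat.succ_pos S))
    exact le_trans hT4 (le_trans (hex (Nat.zero_le _)) h1)
  -- `D = a - k`, `N = ⌈m / D⌉`
  obtain ⟨D, hD⟩ : ∃ D, D + k = a := ⟨a - k, by omega⟩
  have hD0 : 0 < D := by omega
  obtain ⟨N, u, huD, hNu⟩ : ∃ N u : ℕ, u < D ∧ N * D = m + u := by
    refine ⟨(m + D - 1) / D, (m + D - 1) / D * D - m, ?_, ?_⟩
    · have h1 := Nat.div_add_mod (m + D - 1) D
      have h2 := Nat.mod_lt (m + D - 1) hD0
      rw [mul_comm] at h1
      omega
    · have h1 := Nat.div_add_mod (m + D - 1) D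
      have h2 := Nat.mod_lt (m + D - 1) hD0
      rw [mul_comm] at h1
      omega
  have hND : N * a = N * D + N * k := by rw [← hD, Nat.mul_add]
  -- `N ≤ b`
  have hkb : k * b ≤ K * b := Nat.mul_le_mul_right b (by omega)
  have hNb : N ≤ b := by
    by_contra hn
    have h1 : (b + 1) * D ≤ N * D := Nat.mul_le_mul_right D (by omega)
    have h2 : (b + 1) * D + b * k = a * b + D := by rw [← hD]; ring
    have h3 : b * k = k * b := mul_comm _ _
    omega
  obtain ⟨T, hTN⟩ : ∃ T, T + N = b := ⟨b - N, by omega⟩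
  -- `T ≤ R (L / a + 1)`
  have haT : a * T ≤ (S + 1) * L := by
    have h1 : a * b = a * T + N * a := by rw [← hTN]; ring
    omega
  have hLx : L < a * (x + 1) := by
    rw [hx]
    have := Nat.lt_mul_div_succ L (show 0 < a by omega)
    simpa [Nat.succ_eq_add_one] using this
  have hTx : T ≤ (S + 1) * (x + 1) := by
    by_contra hn
    have h1 : a * ((S + 1) * (x + 1)) ≤ a * T := Nat.mul_le_mul_left a (by omega)
    have h2 : (S + 1) * L < (S + 1) * (a * (x + 1)) := Nat.mul_lt_mul_of_pos_left hLx (by omega)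
    have h3 : a * ((S + 1) * (x + 1)) = (S + 1) * (a * (x + 1)) := by ring
    omega
  have hTx3 : (S + 1) * (x + 1) ≤ (S + 1) * (x + 3) := Nat.mul_le_mul_left _ (by omega)
  have haN : a ≤ N := by omega
  have huN : u < N := by omega
  -- the monomials
  set kq : Fin N → ℕ := fun q => if (q : ℕ) < u then k + 1 else k with hkq
  have hkq' : ∀ q, kq q = k ∨ kq q = k + 1 := by
    intro q
    rw [hkq]
    simp only
    split_ifs
    · exact Or.inr rfl
    · exact Or.inl rfl
  have hsumkq : ∑ q, kq q = N * k + u := by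
    have h1 : ∀ q : Fin N, kq q = k + (if (q : ℕ) < u then 1 else 0) := by
      intro q
      rw [hkq]
      simp only
      split_ifs <;> rfl
    rw [Finset.sum_congr rfl (fun q _ => h1 q), Finset.sum_add_distrib, Finset.sum_const,
      card_univ, Fintype.card_fin, smul_eq_mul]
    congr 1
    rw [Fin.sum_univ_eq_sum_range (fun i => if i < u then 1 else 0) N, ← Finset.sum_filter,
      Finset.sum_const, smul_eq_mul, mul_one]
    have h2 : (range N).filter (fun i => i < u) = range u := by
      ext i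
      rw [mem_filter, mem_range, mem_range]
      omega
    rw [h2, card_range]
  obtain ⟨M, hMi, hMs, hM0⟩ := exists_mono (N := N) (R1 := r + 1) (k := k) (Nat.succ_pos r)
    (le_trans hNb hmon) kq hkq'
  set M' : Fin N → Fin (r + 1) → ℕ := fun q i => M q i with hM'
  have hM's : ∀ q, ∑ i, M' q i = kq q := by
    intro q
    rw [← hMs q, ← Fin.sum_univ_eq_sum_range (fun i => M q i)]
  have hM'i : Function.Injective M' := by
    intro q q' h
    apply hMi
    funext i
    by_cases hi : i < r + 1
    · exact congrFun h ⟨i, hi⟩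
    · rw [hM0 q i (by omega), hM0 q' i (by omega)]
  have htot : ∑ q, ∑ i, M' q i = N * k + u := by
    rw [Finset.sum_congr rfl (fun q _ => hM's q), hsumkq]
  -- the room
  have hgap1 : (k + 2) * (x + 2) ≤ K * (x + 1) := by
    calc (k + 2) * (x + 2) ≤ (2 * k + 11) * (x + 1) := by nlinarith
      _ ≤ K * (x + 1) := Nat.mul_le_mul_right _ hK
  have hdiv : ∀ i, ex lam i / a ≤ x := fun i => Nat.div_le_div_right (le_trans (hex (Nat.zero_le i)) hT1)
  have hgapi : ∀ i, (k + 1 + 1) * (ex lam i / a + 2) ≤ (k + 2) * (x + 2) := fun i =>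
    Nat.mul_le_mul_left _ (Nat.add_le_add_right (hdiv i) 2)
  refine ⟨{
    a := a
    S := S
    R1 := r
    k := k + 1
    N := N
    T := T
    lam := ex lam
    M := M'
    hR1 := by omega
    anti := hex
    ha := by omega
    hL := by
      have h1 : 11 * (a + b) ≤ K * (a + b) := Nat.mul_le_mul_right _ (by omega)
      omega
    gap := by
      intro i hi
      have h1 := hT3 i (by omega)
      have h2 := hgapi i
      omega
    room := by
      rw [htot]
      have h1 : ∑ i ∈ Ico r (S + 1), (k + 1 + 1) * (ex lam i / a + 2) ≤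
          (Ico r (S + 1)).card • ((k + 2) * (x + 2)) :=
        Finset.sum_le_card_nsmul _ _ _ (fun i _ => hgapi i)
      rw [Nat.card_Ico, smul_eq_mul] at h1
      have h2 : (S + 1 - r) * ((k + 2) * (x + 2)) ≤ (k + 2) * ((S + 1) * (x + 3)) := by
        calc (S + 1 - r) * ((k + 2) * (x + 2)) ≤ (S + 1) * ((k + 2) * (x + 3)) :=
              Nat.mul_le_mul (Nat.sub_le _ _) (Nat.mul_le_mul_left _ (by omega))
          _ = (k + 2) * ((S + 1) * (x + 3)) := by ring
      have h3 : (k + 2) * ((S + 1) * (x + 3)) ≤ (k + 2) * b := Nat.mul_le_mul_left _ (by omega)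
      have h4 : N * k ≤ b * k := Nat.mul_le_mul_right _ hNb
      have h5 : (2 * k + 11) * b ≤ K * b := Nat.mul_le_mul_right _ hK
      have h6 : (2 * k + 11) * b = b * k + (k + 2) * b + 9 * b := by ring
      have h7 : ex lam (r + 1) ≤ ex lam r := hex (Nat.le_succ r)
      omega
    tot := by
      rw [htot]
      have h1 : a * b = a * T + N * a := by rw [← hTN]; ring
      omega
    deg := by
      intro q
      rw [hM's q]
      rcases hkq' q with h | h <;> omega
    Minj := hM'i }, rfl, rfl, rfl, hTN, by simp only; omega, by simp only; omega, ?_⟩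
  intro q q'
  show ∑ i, M' q i ≤ ∑ i, M' q' i + 1
  rw [hM's, hM's]
  rcases hkq' q with h | h <;> rcases hkq' q' with h' | h' <;> omega

end Vale.Agent.P181.H914
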