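import Mathlib

set_option autoImplicit false

/-!
P181, S5: the choice of the window of the marker columns and the numbers (pure part).
-/

open Finset

namespace Vale.Agent.P181.H914

/-- **Window.** -/
theorem exists_window (w : ℕ → ℕ) (a K0 K1 N : ℕ) (h : K0 ≤ K1) (h0 : w (K0 * N) ≤ a)
    (h1 : 1 ≤ w (K1 * N)) (hK : a < 2 ^ (K1 - K0)) : ∃ k, K0 ≤ k ∧ k < K1 ∧ w (k * N) ≤ 2 * w ((k + 1) * N) := by
  by_contra hcon
  push Not at hcon
  have key : ∀ j, K0 + j ≤ K1 → 2 ^ j * w ((K0 + j) * N) ≤ w (K0 * N) := by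
    intro j
    induction j with
    | zero => intro _; simp
    | succ j ih =>
      intro hj
      have h2 := ih (by omega)
      have h3 := hcon (K0 + j) (by omega) (by omega)
      calc 2 ^ (j + 1) * w ((K0 + (j + 1)) * N) = 2 ^ j * (2 * w ((K0 + j + 1) * N)) := by
            rw [pow_succ, ← Nat.add_assoc]; ring
        _ ≤ 2 ^ j * w ((K0 + j) * N) := Nat.mul_le_mul_left _ h3.le
        _ ≤ _ := h2
  have h2 := key (K1 - K0) (by omega)
  rw [Nat.add_sub_cancel' h] at h2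
  have h3 : 2 ^ (K1 - K0) * 1 ≤ 2 ^ (K1 - K0) * w (K1 * N) := Nat.mul_le_mul_left _ h1
  omega

/-- Eventual inequalities. -/
theorem ev5 (e c : ℝ) (he : 0 < e) (hc : 0 < c) : ∀ᶠ b : ℕ in Filter.atTop,
    10 ≤ (b : ℝ) ^ e ∧ 20 * Real.log b ≤ c * (b : ℝ) ^ e := by
  have h1 : ∀ᶠ x : ℝ in Filter.atTop, 10 ≤ x ^ e :=
    (tendsto_rpow_atTop he).eventually_ge_atTop 10
  have h2 : ∀ᶠ x : ℝ in Filter.atTop, ‖Real.log x‖ ≤ c / 20 * ‖x ^ e‖ :=
    (isLittleO_log_rpow_atTop he).bound (by positivity)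
  have h3 : ∀ᶠ x : ℝ in Filter.atTop, 10 ≤ x ^ e ∧ 20 * Real.log x ≤ c * x ^ e := by
    filter_upwards [h1, h2, Filter.eventually_ge_atTop (0 : ℝ)] with x hx1 hx2 hx0
    refine ⟨hx1, ?_⟩
    rw [Real.norm_of_nonneg (Real.rpow_nonneg hx0 e)] at hx2
    have h4 := (Real.le_norm_self (Real.log x)).trans hx2
    linarith
  exact tendsto_natCast_atTop_atTop.eventually h3

/-- **The final numerical inequality.** -/
theorem num5_fin {a b m N k s : ℕ} {c y : ℝ} (hab : a + 1 ≤ b) (hs : s ≤ a * b)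
    (hc' : c * b ≤ (b : ℝ) - a) (hy : 0 < y) (hN : (N : ℝ) * y ^ 2 ≤ b)
    (hN' : (b : ℝ) ≤ 2 * N * y ^ 2) (hm : y ^ 2 ≤ (m : ℝ)) (hk : y ≤ (k : ℝ)) (hkN : k * N ≤ b)
    (hlog : 20 * Real.log b ≤ c * y) :
    (a : ℝ) ^ (2 * m * N) * (((s + b - 1).choose (b - 1) * b.factorial : ℕ) : ℝ) ≤
      (1 + ((k * N : ℕ) : ℝ) / b) ^ (m * (b - a)) := by
  have hb : 0 < b := by omega
  have hbR : (0 : ℝ) < b := by exact_mod_cast hb
  have hb1 : (1 : ℝ) ≤ b := by exact_mod_cast hb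
  have hlog0 : 0 ≤ Real.log b := Real.log_nonneg hb1
  -- the left side
  have h1 : (s + b - 1).choose (b - 1) ≤ (b ^ 2) ^ b := by
    calc (s + b - 1).choose (b - 1) ≤ (s + b - 1) ^ (b - 1) := Nat.choose_le_pow _ _
      _ ≤ (b ^ 2) ^ (b - 1) := by
          refine Nat.pow_le_pow_left ?_ _
          have h2 : a * b + b ≤ b ^ 2 := by nlinarith
          omega
      _ ≤ (b ^ 2) ^ b := Nat.pow_le_pow_right (by positivity) (by omega)
  have h2 : b.factorial ≤ b ^ b := Nat.factorial_le_pow b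
  have h3 : (((s + b - 1).choose (b - 1) * b.factorial : ℕ) : ℝ) ≤ (b : ℝ) ^ (3 * b) := by
    have h4 : (s + b - 1).choose (b - 1) * b.factorial ≤ b ^ (3 * b) := by
      calc (s + b - 1).choose (b - 1) * b.factorial ≤ (b ^ 2) ^ b * b ^ b := Nat.mul_le_mul h1 h2
        _ = b ^ (3 * b) := by rw [← pow_mul, ← pow_add]; congr 1; ring
    exact_mod_cast h4
  have h4 : (a : ℝ) ^ (2 * m * N) ≤ (b : ℝ) ^ (2 * m * N) := by
    refine pow_le_pow_left₀ (Nat.cast_nonneg _) ?_ _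
    exact_mod_cast (by omega : a ≤ b)
  have h5 : (a : ℝ) ^ (2 * m * N) * (((s + b - 1).choose (b - 1) * b.factorial : ℕ) : ℝ) ≤
      Real.exp (((2 * m * N + 3 * b : ℕ) : ℝ) * Real.log b) := by
    calc (a : ℝ) ^ (2 * m * N) * (((s + b - 1).choose (b - 1) * b.factorial : ℕ) : ℝ)
        ≤ (b : ℝ) ^ (2 * m * N) * (b : ℝ) ^ (3 * b) :=
          mul_le_mul h4 h3 (Nat.cast_nonneg _) (by positivity)
      _ = (b : ℝ) ^ (2 * m * N + 3 * b) := (pow_add _ _ _).symm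
      _ = Real.exp (((2 * m * N + 3 * b : ℕ) : ℝ) * Real.log b) := by
          rw [Real.exp_nat_mul, Real.exp_log hbR]
  refine h5.trans ?_
  -- the right side
  set x : ℝ := ((k * N : ℕ) : ℝ) / b with hx
  have hx1 : x ≤ 1 := by
    rw [hx, div_le_one hbR]
    exact_mod_cast hkN
  have hx0 : 0 ≤ x := by positivity
  have hxy : 1 / (2 * y) ≤ x := by
    rw [hx, div_le_div_iff₀ (by positivity) hbR, one_mul]
    push_cast
    have hN0 : (0 : ℝ) ≤ N := Nat.cast_nonneg _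
    calc (b : ℝ) ≤ 2 * N * y ^ 2 := hN'
      _ = y * N * (2 * y) := by ring
      _ ≤ k * N * (2 * y) := by gcongr
  have h6 : 1 / (4 * y) ≤ Real.log (1 + x) := by
    have h7 := Real.one_sub_inv_le_log_of_pos (by linarith : (0 : ℝ) < 1 + x)
    have h8 : x / 2 ≤ 1 - (1 + x)⁻¹ := by
      have h9 : 1 - (1 + x)⁻¹ = x / (1 + x) := by
        field_simp
        ring
      rw [h9]
      exact div_le_div_of_nonneg_left hx0 (by linarith) (by linarith)
    have h10 : 1 / (4 * y) = (1 / (2 * y)) / 2 := by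
      field_simp
      ring
    rw [h10]
    linarith
  have h7 : (1 + x) ^ (m * (b - a)) = Real.exp (((m * (b - a) : ℕ) : ℝ) * Real.log (1 + x)) := by
    rw [Real.exp_nat_mul, Real.exp_log (by linarith : (0 : ℝ) < 1 + x)]
  rw [h7]
  apply Real.exp_le_exp.2
  have h8 : ((m * (b - a) : ℕ) : ℝ) = m * ((b : ℝ) - a) := by
    rw [Nat.cast_mul, Nat.cast_sub (by omega)]
  rw [h8]
  have hm0 : (0 : ℝ) ≤ m := Nat.cast_nonneg _
  have hba : 0 ≤ (b : ℝ) - a := by
    have : (a : ℝ) ≤ b := by exact_mod_cast (by omega : a ≤ b)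
    linarith
  have h9 : (m : ℝ) * (c * b) * (1 / (4 * y)) ≤ m * ((b : ℝ) - a) * Real.log (1 + x) := by
    have h10 : (m : ℝ) * (c * b) * (1 / (4 * y)) ≤ m * ((b : ℝ) - a) * (1 / (4 * y)) := by
      gcongr
    exact h10.trans (mul_le_mul_of_nonneg_left h6 (by positivity))
  refine le_trans ?_ h9
  have hy2 : 0 < y ^ 2 := by positivity
  have h10 : ((2 * m * N + 3 * b : ℕ) : ℝ) ≤ 5 * m * b / y ^ 2 := by
    rw [le_div_iff₀ hy2]
    push_cast
    have h11 : (m : ℝ) * (N * y ^ 2) ≤ m * b := mul_le_mul_of_nonneg_left hN hm0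
    have h12 : (b : ℝ) * y ^ 2 ≤ b * m := mul_le_mul_of_nonneg_left hm hbR.le
    nlinarith
  calc ((2 * m * N + 3 * b : ℕ) : ℝ) * Real.log b ≤ 5 * m * b / y ^ 2 * Real.log b :=
        mul_le_mul_of_nonneg_right h10 hlog0
    _ = m * b / (4 * y ^ 2) * (20 * Real.log b) := by
        field_simp
        ring
    _ ≤ m * b / (4 * y ^ 2) * (c * y) := by gcongr
    _ = (m : ℝ) * (c * b) * (1 / (4 * y)) := by
        field_simp

end Vale.Agent.P181.H914
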