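import Vale.Agent.P181.H59.SpecG
import Vale.Agent.P181.H914.Num5a
import Vale.Agent.P181.H921.Col
import Vale.Agent.P181.H539.Growth
import Vale.Agent.P181.H539.Upper
import Vale.Agent.P181.T4.Asm

set_option autoImplicit false

/-!
P181, S5: the marker columns, their removal and the numbers: `DesignStmt → MatStmt → MainStmt`.
-/

open Finset

namespace Vale.Agent.P181.H914

open Vale.Agent.P181 Vale.Agent.P181.H280 Vale.Agent.P181.FR Vale.Agent.P181.H188W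
open Vale.Agent.P181.T4 Vale.Agent.P181.H463 Vale.Agent.P181.H59

/-- The length of the column `j`. -/
def cj {a : ℕ} (lam : Fin a → ℕ) (j : ℕ) : ℕ := (univ.filter fun i => j < lam i).card

lemma cj_anti {a : ℕ} (lam : Fin a → ℕ) {j j' : ℕ} (h : j ≤ j') : cj lam j' ≤ cj lam j := by
  apply card_le_card
  intro i hi
  rw [mem_filter] at hi ⊢
  exact ⟨hi.1, lt_of_le_of_lt h hi.2⟩

lemma cj_le {a : ℕ} (lam : Fin a → ℕ) (j : ℕ) : cj lam j ≤ a := by
  refine (card_filter_le _ _).trans ?_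
  rw [card_univ, Fintype.card_fin]

/-- In an antitone shape the rows longer than `j` are the first `cj lam j` ones. -/
lemma lt_cj {a : ℕ} {lam : Fin a → ℕ} (hlam : Antitone lam) (i : Fin a) (j : ℕ) :
    (i : ℕ) < cj lam j ↔ j < lam i := by
  have h := lt_collen (L := j + 1) hlam i ⟨j, Nat.lt_succ_self j⟩
  exact h

/-- **The middle column is long.** -/
lemma half_le {a b : ℕ} {B : ℝ} {lam : Fin a → ℕ} (hsum : ∑ i, lam i = a * b)
    (hB : ∀ i, (lam i : ℝ) ≤ B) :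
    (a : ℝ) * b ≤ cj lam (b / 2) * B + a * ((b / 2 : ℕ) : ℝ) := by
  have h1 : (a : ℝ) * b = ∑ i, (lam i : ℝ) := by exact_mod_cast hsum.symm
  rw [h1]
  have h2 : ∀ i, (lam i : ℝ) ≤ (if b / 2 < lam i then B else 0) + ((b / 2 : ℕ) : ℝ) := by
    intro i
    split_ifs with h
    · have := hB i
      have : (0 : ℝ) ≤ ((b / 2 : ℕ) : ℝ) := Nat.cast_nonneg _
      linarith [hB i]
    · rw [zero_add]
      exact_mod_cast not_lt.1 h
  refine (Finset.sum_le_sum fun i _ => h2 i).trans ?_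
  rw [Finset.sum_add_distrib, ← Finset.sum_filter, Finset.sum_const, Finset.sum_const, card_univ,
    Fintype.card_fin, nsmul_eq_mul, nsmul_eq_mul]
  exact le_rfl

/-- the remaining shape -/
def et {a : ℕ} (lam : Fin a → ℕ) (k N : ℕ) : Fin a → ℕ :=
  fun i => min (lam i) (k * N) + (lam i - (k + 1) * N)

lemma et_anti {a : ℕ} {lam : Fin a → ℕ} (hlam : Antitone lam) (k N : ℕ) :
    Antitone (et lam k N) := by
  intro i j hij
  have h := hlam hij
  simp only [et]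
  omega

lemma card_win (x k N : ℕ) :
    (univ.filter fun c : Fin N => k * N + (c : ℕ) < x).card + (min x (k * N) + (x - (k + 1) * N))
      = x := by
  have h1 : (univ.filter fun c : Fin N => k * N + (c : ℕ) < x).card = min N (x - k * N) := by
    rw [← Fin.card_filter_val_lt]
    congr 1
    ext c
    simp only [mem_filter, mem_univ, true_and]
    omega
  rw [h1, Nat.add_mul, Nat.one_mul]
  omega

/-- **S5, comparison.** -/
theorem compare5 {a b m N k : ℕ} {lam : Fin a → ℕ} (hlam : Antitone lam) (ha : 0 < a)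
    (hab : a ≤ b) (hm : m = cj lam ((k + 1) * N)) (hlen : ∀ c : Fin N, cj lam (k * N + c) ≤ 2 * m)
    (hnum : (a : ℝ) ^ (2 * m * N) *
      ((((∑ i, et lam k N i) + b - 1).choose (b - 1) * b.factorial : ℕ) : ℝ) ≤
      (1 + ((k * N : ℕ) : ℝ) / b) ^ (m * (b - a)))
    (hC : gt a b (et lam k N) ≤ ((∑ i, et lam k N i) + b - 1).choose (b - 1) *
      (b.factorial * plethMult b a a lam)) :
    plethMult a b a lam ≤ plethMult b a a lam := by
  classical
  have hη := et_anti hlam k N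
  have h1 := plethMult_le_pow (a := a) (b := b) (c := a) (R := 0) (m := a) (Nat.zero_add a) lam
    (∑ i, lam i) (fun i hi => absurd hi (Nat.not_lt_zero _))
  have h2 : (fun i : Fin a => lam ⟨0 + i, by have := i.isLt; omega⟩) = lam := by
    funext i
    congr 1
    exact Fin.ext (Nat.zero_add _)
  rw [h2, Nat.zero_mul, pow_zero, one_mul] at h1
  have h3 := Vale.Agent.P181.H539.finrank_HW_le_gt a a hlam
  have h4 := Vale.Agent.P181.H921.gt_addcols_le (n := a) a (univ : Finset (Fin N))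
    (fun c => cj lam (k * N + c)) (fun c _ => cj_le lam _) hη
  have h5 : (fun i : Fin a => et lam k N i +
      ((univ : Finset (Fin N)).filter fun c : Fin N =>
        (i : ℕ) < cj lam (k * N + (c : ℕ))).card) = lam := by
    funext i
    simp only [lt_cj hlam]
    have := card_win (lam i) k N
    simp only [et]
    omega
  rw [h5] at h4
  have h6 : (∏ c : Fin N, a.choose (cj lam (k * N + c))) ≤ a ^ (2 * m * N) := by
    have h7 : ∀ c ∈ (univ : Finset (Fin N)), a.choose (cj lam (k * N + c)) ≤ a ^ (2 * m) := by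
      intro c _
      exact (Nat.choose_le_pow _ _).trans (Nat.pow_le_pow_right ha (hlen c))
    refine (Finset.prod_le_pow_card _ _ _ h7).trans ?_
    rw [card_univ, Fintype.card_fin, ← pow_mul]
  have h7 := Vale.Agent.P181.H539.gt_growth_rows (n := a) (a := a) (N := b) (l := m) (n0 := k * N)
    le_rfl ha hab hη (by rw [hm]; exact cj_le lam _) (by
      intro i hi
      rw [hm, lt_cj hlam] at hi
      rw [Nat.add_mul, Nat.one_mul] at hi
      simp only [et]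
      omega)
  set G : ℝ := (gt a a (et lam k N) : ℝ) with hG
  set G' : ℝ := (gt a b (et lam k N) : ℝ) with hG'
  set X : ℝ := (1 + ((k * N : ℕ) : ℝ) / b) ^ (m * (b - a)) with hX
  set P : ℝ := (plethMult b a a lam : ℝ) with hP
  set Cc : ℝ :=
    ((((∑ i, et lam k N i) + b - 1).choose (b - 1) * b.factorial : ℕ) : ℝ) with hCc
  have h8 : (plethMult a b a lam : ℝ) ≤ (a : ℝ) ^ (2 * m * N) * G := by
    rw [hG]
    exact_mod_cast ((h1.trans h3).trans h4).trans (Nat.mul_le_mul_right _ h6)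
  have h9 : G' ≤ Cc * P := by
    rw [hG', hCc, hP]
    rw [← Nat.mul_assoc] at hC
    exact_mod_cast hC
  have hX0 : 0 < X := by positivity
  have hP0 : 0 ≤ P := Nat.cast_nonneg _
  have hL0 : (0 : ℝ) ≤ (a : ℝ) ^ (2 * m * N) := by positivity
  have h10 : (plethMult a b a lam : ℝ) * X ≤ P * X := by
    calc (plethMult a b a lam : ℝ) * X
        ≤ ((a : ℝ) ^ (2 * m * N) * G) * X := mul_le_mul_of_nonneg_right h8 hX0.le
      _ = (a : ℝ) ^ (2 * m * N) * (G * X) := by ring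
      _ ≤ (a : ℝ) ^ (2 * m * N) * G' := mul_le_mul_of_nonneg_left h7 hL0
      _ ≤ (a : ℝ) ^ (2 * m * N) * (Cc * P) := mul_le_mul_of_nonneg_left h9 hL0
      _ = ((a : ℝ) ^ (2 * m * N) * Cc) * P := by ring
      _ ≤ X * P := mul_le_mul_of_nonneg_right hnum hP0
      _ = P * X := mul_comm _ _
  have h11 : (plethMult a b a lam : ℝ) ≤ (plethMult b a a lam : ℝ) :=
    le_of_mul_le_mul_right h10 hX0
  exact_mod_cast h11

/-- **The middle column is long**, with the exponents. -/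
lemma mid_le {a b : ℕ} {e y : ℝ} {lam : Fin a → ℕ} (ha : 0 < a) (hb : 0 < b)
    (hsum : ∑ i, lam i = a * b) (hrow : ∀ i, (lam i : ℝ) ≤ a * (b : ℝ) ^ (1 / 2 - 2 * e))
    (hy2 : (b : ℝ) ^ e = y ^ 2) (hy10 : 10 ≤ y) :
    (b : ℝ) ^ (1 / 2 + e) ≤ cj lam (b / 2) := by
  have haR : (0 : ℝ) < a := by exact_mod_cast ha
  have hbR : (0 : ℝ) < b := by exact_mod_cast hb
  have h1 := half_le (B := a * (b : ℝ) ^ (1 / 2 - 2 * e)) hsum hrow
  have h2 : ((b / 2 : ℕ) : ℝ) ≤ (b : ℝ) / 2 := by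
    have := Nat.cast_div_le (m := b) (n := 2) (α := ℝ)
    simpa using this
  set u : ℝ := (b : ℝ) ^ (1 / 2 - 2 * e) with hu
  set v : ℝ := (b : ℝ) ^ (1 / 2 + e) with hv
  set w : ℝ := (cj lam (b / 2) : ℝ) with hw
  have hu0 : 0 < u := Real.rpow_pos_of_pos hbR _
  have hv0 : 0 < v := Real.rpow_pos_of_pos hbR _
  have h3 : (a : ℝ) * (b / 2) ≤ a * (w * u) := by
    have h4 : (a : ℝ) * ((b / 2 : ℕ) : ℝ) ≤ a * (b / 2) := mul_le_mul_of_nonneg_left h2 haR.le
    linarith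
  have h4 : (b : ℝ) / 2 ≤ w * u := le_of_mul_le_mul_left h3 haR
  have h5 : v * u * y ^ 2 = b := by
    rw [← hy2, hv, hu, ← Real.rpow_add hbR, ← Real.rpow_add hbR,
      show (1 / 2 + e + (1 / 2 - 2 * e) + e : ℝ) = 1 by ring, Real.rpow_one]
  have h8 : v * u ≤ w * u := by
    refine le_trans ?_ h4
    have h9 : 0 < v * u := mul_pos hv0 hu0
    have h10 : 2 ≤ y ^ 2 := by nlinarith
    have h11 : v * u * 2 ≤ v * u * y ^ 2 := mul_le_mul_of_nonneg_left h10 h9.le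
    linarith
  exact le_of_mul_le_mul_right h8 hu0

/-- **The number of windows.** -/
lemma windows {a b N : ℕ} {c y : ℝ} (hab : (a : ℝ) < b) (hN : 0 < N)
    (hy10 : 10 ≤ y) (hNy : (N : ℝ) * y ^ 2 ≤ b) (hc0 : c ≤ 1)
    (hlog : 20 * Real.log b ≤ c * y) :
    ⌈y⌉₊ ≤ (b / 2) / N ∧ a < 2 ^ ((b / 2) / N - ⌈y⌉₊) := by
  have hbR : (0 : ℝ) < b := lt_of_le_of_lt (Nat.cast_nonneg a) hab
  have hNR : (0 : ℝ) < N := by exact_mod_cast hN
  have hy0 : 0 ≤ y := by linarith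
  set K0 : ℕ := ⌈y⌉₊ with hK0
  set K1 : ℕ := (b / 2) / N with hK1
  have hK0y : (K0 : ℝ) ≤ y + 1 := (Nat.ceil_lt_add_one hy0).le
  have hK1y : y ^ 2 / 2 - 3 / 2 ≤ (K1 : ℝ) := by
    have h1 : b / 2 < (K1 + 1) * N := by
      have h0 := Nat.lt_div_mul_add (a := b / 2) hN
      rw [Nat.add_mul, Nat.one_mul]
      exact h0
    have h2 : b ≤ 2 * ((K1 + 1) * N) := by omega
    have h3 : (b : ℝ) ≤ 2 * ((K1 + 1) * N) := by exact_mod_cast h2
    have h4 : (N : ℝ) * y ^ 2 ≤ N * (2 * (K1 + 1)) := by linarith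
    have h5 := le_of_mul_le_mul_left h4 hNR
    linarith
  have hKK : y + K0 ≤ (K1 : ℝ) := by nlinarith
  have hKle : K0 ≤ K1 := by
    have : (K0 : ℝ) ≤ K1 := by linarith
    exact_mod_cast this
  refine ⟨hKle, ?_⟩
  have h1 : ((K1 - K0 : ℕ) : ℝ) = K1 - K0 := Nat.cast_sub hKle
  have h2 : y ≤ ((K1 - K0 : ℕ) : ℝ) := by
    rw [h1]
    linarith
  have h3 : (b : ℝ) ≤ 2 ^ (K1 - K0) := by
    have h4 : Real.log b ≤ ((K1 - K0 : ℕ) : ℝ) * Real.log 2 := by
      have h5 : Real.log b ≤ y / 20 := by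
        have : c * y ≤ 1 * y := mul_le_mul_of_nonneg_right hc0 hy0
        linarith
      have h6 : (0.6931471803 : ℝ) < Real.log 2 := Real.log_two_gt_d9
      have h7 : y * Real.log 2 ≤ ((K1 - K0 : ℕ) : ℝ) * Real.log 2 :=
        mul_le_mul_of_nonneg_right h2 (by linarith)
      have h8 : y * 0.6931471803 ≤ y * Real.log 2 := mul_le_mul_of_nonneg_left h6.le hy0
      linarith
    have h5 := Real.exp_le_exp.2 h4
    rw [Real.exp_log hbR, Real.exp_nat_mul, Real.exp_log (by norm_num)] at h5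
    exact h5
  have h4 : (a : ℝ) < 2 ^ (K1 - K0) := lt_of_lt_of_le hab h3
  exact_mod_cast h4

/-- the powers of `b` -/
lemma powers {b : ℕ} {e y : ℝ} (hb : 0 < b) (he : 0 < e) (he' : e ≤ 1 / 8)
    (hy : y = (b : ℝ) ^ (e / 2)) (hy10 : 10 ≤ y) :
    (b : ℝ) ^ e = y ^ 2 ∧ 0 < ⌊(b : ℝ) ^ (1 - e)⌋₊ ∧
      ((⌊(b : ℝ) ^ (1 - e)⌋₊ : ℕ) : ℝ) * y ^ 2 ≤ b ∧
      (b : ℝ) ≤ 2 * ((⌊(b : ℝ) ^ (1 - e)⌋₊ : ℕ) : ℝ) * y ^ 2 := by
  have hbR : (0 : ℝ) < b := by exact_mod_cast hb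
  have hb1R : (1 : ℝ) ≤ b := by exact_mod_cast hb
  have hy2 : (b : ℝ) ^ e = y ^ 2 := by
    rw [hy, ← Real.rpow_natCast, ← Real.rpow_mul hbR.le]
    congr 1
    push_cast
    ring
  set z : ℝ := (b : ℝ) ^ (1 - e) with hz
  have hy1 : z * y ^ 2 = b := by
    rw [← hy2, hz, ← Real.rpow_add hbR, show (1 - e + e : ℝ) = 1 by ring, Real.rpow_one]
  have hz0 : 0 ≤ z := Real.rpow_nonneg hbR.le _
  have h2le : 2 ≤ z := by
    have : y ≤ z := by
      rw [hy, hz]
      exact Real.rpow_le_rpow_of_exponent_le hb1R (by linarith)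
    linarith
  have hNle : ((⌊z⌋₊ : ℕ) : ℝ) ≤ z := Nat.floor_le hz0
  have hNge : z / 2 ≤ ((⌊z⌋₊ : ℕ) : ℝ) := by
    have := Nat.lt_floor_add_one z
    linarith
  refine ⟨hy2, ?_, ?_, ?_⟩
  · have : (0 : ℝ) < ((⌊z⌋₊ : ℕ) : ℝ) := by linarith
    exact_mod_cast this
  · rw [← hy1]
    exact mul_le_mul_of_nonneg_right hNle (sq_nonneg y)
  · calc (b : ℝ) = z * y ^ 2 := hy1.symm
      _ ≤ (2 * ((⌊z⌋₊ : ℕ) : ℝ)) * y ^ 2 :=
        mul_le_mul_of_nonneg_right (by linarith) (sq_nonneg y)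

/-- **[S5-NUM]**, for one pair. -/
theorem num_pair (hM : MatStmt) {e δ c : ℝ} (he : 0 < e) (he' : e ≤ 1 / 8)
    (hδ : 0 < δ) (hc : c = δ / (1 + δ)) {a b : ℕ} (ha : 0 < a) (hab : (1 + δ) * a ≤ b)
    (hdes : ∀ m : ℕ, (b : ℝ) ^ (1 / 2 + e) ≤ m → m ≤ a →
      ∀ len : Fin ⌊(b : ℝ) ^ (1 - e)⌋₊ → ℕ, (∀ c, m ≤ len c ∧ len c ≤ 2 * m ∧ len c ≤ a) →
      ∃ R : ℕ, R ≤ m ∧ Design b R ⌊(b : ℝ) ^ (1 - e)⌋₊ len)
    (hy10 : 10 ≤ (b : ℝ) ^ (e / 2)) (hlog : 20 * Real.log b ≤ c * (b : ℝ) ^ (e / 2))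
    (lam : Fin a → ℕ) (hlam : Antitone lam) (hsum : ∑ i, lam i = a * b)
    (hrow : ∀ i, (lam i : ℝ) ≤ a * (b : ℝ) ^ (1 / 2 - 2 * e)) :
    plethMult a b a lam ≤ plethMult b a a lam := by
  have haR : (0 : ℝ) < a := by exact_mod_cast ha
  have habR : (a : ℝ) < b := by nlinarith
  have hab' : a + 1 ≤ b := by exact_mod_cast habR
  have hb : 0 < b := by omega
  have hbR : (0 : ℝ) < b := by exact_mod_cast hb
  have hb1R : (1 : ℝ) ≤ b := by exact_mod_cast hb
  have hc1 : c ≤ 1 := by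
    rw [hc, div_le_one (by linarith)]
    linarith
  obtain ⟨y, hy⟩ : ∃ y : ℝ, y = (b : ℝ) ^ (e / 2) := ⟨_, rfl⟩
  rw [← hy] at hy10 hlog
  obtain ⟨hy2, hN0, hNy, hNy'⟩ := powers hb he he' hy hy10
  have hy0 : 0 < y := by linarith
  have hmid := mid_le ha hb hsum hrow hy2 hy10
  generalize ⌊(b : ℝ) ^ (1 - e)⌋₊ = N at hN0 hNy hNy' hdes
  obtain ⟨hKle, hpow⟩ := windows habR hN0 hy10 hNy hc1 hlog
  have hK1N : (b / 2) / N * N ≤ b / 2 := Nat.div_mul_le_self _ _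
  have hyK0 : y ≤ ((⌈y⌉₊ : ℕ) : ℝ) := Nat.le_ceil y
  generalize (b / 2) / N = K1 at hKle hpow hK1N
  generalize ⌈y⌉₊ = K0 at hKle hpow hyK0
  have hcK1 : 1 ≤ cj lam (K1 * N) := by
    have h1 : cj lam (b / 2) ≤ cj lam (K1 * N) := cj_anti lam hK1N
    have h2 : (0 : ℝ) < cj lam (b / 2) := lt_of_lt_of_le (Real.rpow_pos_of_pos hbR _) hmid
    have h3 : 0 < cj lam (b / 2) := by exact_mod_cast h2
    omega
  obtain ⟨k, hk0, hk1, hkw⟩ := exists_window (cj lam) a K0 K1 N hKle (cj_le lam _) hcK1 hpow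
  obtain ⟨m, hm⟩ : ∃ m : ℕ, m = cj lam ((k + 1) * N) := ⟨_, rfl⟩
  rw [← hm] at hkw
  have hk1N : (k + 1) * N ≤ b / 2 := (Nat.mul_le_mul_right _ (by omega : k + 1 ≤ K1)).trans hK1N
  have hmR : (b : ℝ) ^ (1 / 2 + e) ≤ m := by
    refine hmid.trans ?_
    rw [hm]
    exact_mod_cast cj_anti lam hk1N
  have hma : m ≤ a := by
    rw [hm]
    exact cj_le lam _
  have hlen1 : ∀ c : Fin N, m ≤ cj lam (k * N + c) := by
    intro c
    rw [hm]
    refine cj_anti lam ?_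
    rw [Nat.add_mul, Nat.one_mul]
    have := c.2
    omega
  have hlen2 : ∀ c : Fin N, cj lam (k * N + c) ≤ 2 * m := by
    intro c
    exact (cj_anti lam (Nat.le_add_right _ _)).trans hkw
  obtain ⟨R, hRm, hd⟩ := hdes m hmR hma (fun c => cj lam (k * N + c))
    (fun c => ⟨hlen1 c, hlen2 c, cj_le lam _⟩)
  have hmat := hM a b R N (fun c => cj lam (k * N + c)) lam (et lam k N) hb hd
    (fun c => ⟨hRm.trans (hlen1 c), cj_le lam _⟩) (et_anti hlam k N) (by
      intro i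
      simp only [lt_cj hlam]
      exact card_win (lam i) k N) hsum
  have hkN : k * N ≤ b := by
    rw [Nat.add_mul, Nat.one_mul] at hk1N
    omega
  have hs : ∑ i, et lam k N i ≤ a * b := by
    rw [← hsum]
    refine Finset.sum_le_sum fun i _ => ?_
    have := card_win (lam i) k N
    simp only [et]
    omega
  have hcb : c * b ≤ (b : ℝ) - a := by
    have h1 : (1 - c) * (1 + δ) = 1 := by
      rw [hc]
      field_simp
      ring
    have h2 : (a : ℝ) = (1 - c) * ((1 + δ) * a) := by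
      rw [← mul_assoc, h1, one_mul]
    have h3 : (1 - c) * ((1 + δ) * a) ≤ (1 - c) * b :=
      mul_le_mul_of_nonneg_left hab (by linarith)
    linarith
  have hym : y ^ 2 ≤ (m : ℝ) := by
    refine le_trans ?_ hmR
    rw [← hy2]
    exact Real.rpow_le_rpow_of_exponent_le hb1R (by linarith)
  have hyk : y ≤ (k : ℝ) := by
    refine hyK0.trans ?_
    exact_mod_cast hk0
  exact compare5 hlam ha (by omega) hm hlen2
    (num5_fin hab' hs hcb hy0 hNy hNy' hym hyk hkN hlog) hmat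

/-- **[S5-NUM]**, small exponents. -/
theorem num_small (hD : DesignStmt) (hM : MatStmt) (e δ : ℝ) (he : 0 < e) (he' : e ≤ 1 / 8)
    (hδ : 0 < δ) : ∀ᶠ a : ℕ in Filter.atTop, ∀ b : ℕ, (1 + δ) * a ≤ b →
    ∀ lam : Fin a → ℕ, Antitone lam → ∑ i, lam i = a * b →
    (∀ i, (lam i : ℝ) ≤ a * (b : ℝ) ^ (1 / 2 - 2 * e)) →
    plethMult a b a lam ≤ plethMult b a a lam := by
  obtain ⟨b0, hb0⟩ := hD e δ he hδ
  obtain ⟨c, hc⟩ : ∃ c : ℝ, c = δ / (1 + δ) := ⟨_, rfl⟩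
  have hc0 : 0 < c := by
    rw [hc]
    positivity
  obtain ⟨b1, hb1⟩ := Filter.eventually_atTop.1 (ev5 (e / 2) c (by linarith) hc0)
  filter_upwards [Filter.eventually_ge_atTop b0, Filter.eventually_ge_atTop b1,
    Filter.eventually_ge_atTop 1] with a ha0 ha1 ha b hab lam hlam hsum hrow
  have haR : (0 : ℝ) < a := by exact_mod_cast ha
  have habR : (a : ℝ) < b := by nlinarith
  have hab' : a < b := by exact_mod_cast habR
  obtain ⟨hy10, hlog⟩ := hb1 b (by omega)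
  exact num_pair hM he he' hδ hc ha hab (fun m => hb0 b a m (by omega) hab) hy10 hlog lam hlam
    hsum hrow

/-- **[S5-NUM]** -/
theorem num_stmt5 : Vale.Agent.P181.H59.NumStmt := by
  intro hD hM ε δ hε hδ
  have h1 := num_small hD hM (min (ε / 2) (1 / 8)) δ (by positivity) (min_le_right _ _) hδ
  filter_upwards [h1, Filter.eventually_ge_atTop 1] with a h ha b hab lam hlam hsum hrow
  refine h b hab lam hlam hsum fun i => (hrow i).trans ?_
  have haR : (1 : ℝ) ≤ a := by exact_mod_cast ha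
  have hb1R : (1 : ℝ) ≤ b := by nlinarith
  refine mul_le_mul_of_nonneg_left ?_ (by linarith)
  apply Real.rpow_le_rpow_of_exponent_le hb1R
  have := min_le_left (ε / 2) (1 / 8)
  linarith

end Vale.Agent.P181.H914
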