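import Vale.Agent.P181.S6.SpecG
import Vale.Agent.P181.H914.Num5
import Vale.Agent.P181.H463.ChooseL

set_option autoImplicit false

/-!
P181, S6: the marker columns in a length class, their removal and the numbers:
`DesAll → MatStmt → Main6`.
-/

open Finset

namespace Vale.Agent.P181.H914

open Vale.Agent.P181 Vale.Agent.P181.H280 Vale.Agent.P181.FR Vale.Agent.P181.H188W
open Vale.Agent.P181.T4 Vale.Agent.P181.H463 Vale.Agent.P181.H59

/-- the remaining shape: the columns `s, …, s + N - 1` are removed -/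
def et6 {a : ℕ} (lam : Fin a → ℕ) (s N : ℕ) : Fin a → ℕ :=
  fun i => min (lam i) s + (lam i - (s + N))

lemma et6_anti {a : ℕ} {lam : Fin a → ℕ} (hlam : Antitone lam) (s N : ℕ) :
    Antitone (et6 lam s N) := by
  intro i j hij
  have h := hlam hij
  simp only [et6]
  omega

lemma card_win6 (x s N : ℕ) :
    (univ.filter fun c : Fin N => s + (c : ℕ) < x).card + (min x s + (x - (s + N))) = x := by
  have h1 : (univ.filter fun c : Fin N => s + (c : ℕ) < x).card = min N (x - s) := by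
    rw [← Fin.card_filter_val_lt]
    congr 1
    ext c
    simp only [mem_filter, mem_univ, true_and]
    omega
  rw [h1]
  omega

/-- **S6, comparison.** -/
theorem compare6 {a b m N s n0 : ℕ} {lam : Fin a → ℕ} (hlam : Antitone lam) (ha : 0 < a)
    (hab : a ≤ b) (hma : m ≤ a) (hlen : ∀ c : Fin N, cj lam (s + c) ≤ 2 * m)
    (hrow : ∀ i : Fin a, (i : ℕ) < m → n0 ≤ et6 lam s N i)
    (hnum : (a : ℝ) ^ (2 * m * N) *
      ((((∑ i, et6 lam s N i) + b - 1).choose (b - 1) * b.factorial : ℕ) : ℝ) ≤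
      (1 + (n0 : ℝ) / b) ^ (m * (b - a)))
    (hC : gt a b (et6 lam s N) ≤ ((∑ i, et6 lam s N i) + b - 1).choose (b - 1) *
      (b.factorial * plethMult b a a lam)) :
    plethMult a b a lam ≤ plethMult b a a lam := by
  classical
  have hη := et6_anti hlam s N
  have h1 := plethMult_le_pow (a := a) (b := b) (c := a) (R := 0) (m := a) (Nat.zero_add a) lam
    (∑ i, lam i) (fun i hi => absurd hi (Nat.not_lt_zero _))
  have h2 : (fun i : Fin a => lam ⟨0 + i, by have := i.isLt; omega⟩) = lam := by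
    funext i
    exact congrArg lam (Fin.ext (Nat.zero_add _))
  rw [h2, Nat.zero_mul, pow_zero, one_mul] at h1
  have h3 := Vale.Agent.P181.H539.finrank_HW_le_gt a a hlam
  have h4 := Vale.Agent.P181.H921.gt_addcols_le (n := a) a (univ : Finset (Fin N))
    (fun c => cj lam (s + c)) (fun c _ => cj_le lam _) hη
  have h5 : (fun i : Fin a => et6 lam s N i +
      ((univ : Finset (Fin N)).filter fun c : Fin N =>
        (i : ℕ) < cj lam (s + (c : ℕ))).card) = lam := by
    funext i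
    simp only [lt_cj hlam]
    have := card_win6 (lam i) s N
    simp only [et6]
    omega
  rw [h5] at h4
  have h6 : (∏ c : Fin N, a.choose (cj lam (s + c))) ≤ a ^ (2 * m * N) := by
    have h7 : ∀ c ∈ (univ : Finset (Fin N)), a.choose (cj lam (s + c)) ≤ a ^ (2 * m) := by
      intro c _
      exact (Nat.choose_le_pow _ _).trans (Nat.pow_le_pow_right ha (hlen c))
    refine (Finset.prod_le_pow_card _ _ _ h7).trans ?_
    rw [card_univ, Fintype.card_fin, ← pow_mul]
  have h7 := Vale.Agent.P181.H539.gt_growth_rows (n := a) (a := a) (N := b) (l := m) (n0 := n0)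
    le_rfl ha hab hη hma hrow
  set G : ℝ := (gt a a (et6 lam s N) : ℝ) with hG
  set G' : ℝ := (gt a b (et6 lam s N) : ℝ) with hG'
  set X : ℝ := (1 + (n0 : ℝ) / b) ^ (m * (b - a)) with hX
  set P : ℝ := (plethMult b a a lam : ℝ) with hP
  set Cc : ℝ :=
    ((((∑ i, et6 lam s N i) + b - 1).choose (b - 1) * b.factorial : ℕ) : ℝ) with hCc
  have h8 : (plethMult a b a lam : ℝ) ≤ (a : ℝ) ^ (2 * m * N) * G := by
    rw [hG]
    exact_mod_cast ((h1.trans h3).trans h4).trans (Nat.mul_le_mul_right _ h6)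
  have h9 : G' ≤ Cc * P := by
    rw [hG', hCc, hP]
    rw [← Nat.mul_assoc] at hC
    exact_mod_cast hC
  have hX0 : 0 < X := by positivity
  have hP0 : 0 ≤ P := Nat.cast_nonneg _
  have hL0 : (0 : ℝ) ≤ (a : ℝ) ^ (2 * m * N) := by positivity
  have h10 : (plethMult a b a lam : ℝ) * X ≤ P * X := by
    calc (plethMult a b a lam : ℝ) * X
        ≤ ((a : ℝ) ^ (2 * m * N) * G) * X := mul_le_mul_of_nonneg_right h8 hX0.le
      _ = (a : ℝ) ^ (2 * m * N) * (G * X) := by ring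
      _ ≤ (a : ℝ) ^ (2 * m * N) * G' := mul_le_mul_of_nonneg_left h7 hL0
      _ ≤ (a : ℝ) ^ (2 * m * N) * (Cc * P) := mul_le_mul_of_nonneg_left h9 hL0
      _ = ((a : ℝ) ^ (2 * m * N) * Cc) * P := by ring
      _ ≤ X * P := mul_le_mul_of_nonneg_right hnum hP0
      _ = P * X := mul_comm _ _
  have h11 : (plethMult a b a lam : ℝ) ≤ (plethMult b a a lam : ℝ) :=
    le_of_mul_le_mul_right h10 hX0
  exact_mod_cast h11

/-- **The final numerical inequality**, general form. -/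
theorem fin_gen {a b m N n0 s : ℕ} (hab : a + 1 ≤ b) (hs : s ≤ a * b) (hn0 : n0 ≤ b)
    (h : ((2 * m * N + 3 * b : ℕ) : ℝ) * Real.log b ≤
      m * ((b : ℝ) - a) * ((n0 : ℝ) / b / 2)) :
    (a : ℝ) ^ (2 * m * N) * (((s + b - 1).choose (b - 1) * b.factorial : ℕ) : ℝ) ≤
      (1 + (n0 : ℝ) / b) ^ (m * (b - a)) := by
  have hb : 0 < b := by omega
  have hbR : (0 : ℝ) < b := by exact_mod_cast hb
  -- the left side
  have h1 : (s + b - 1).choose (b - 1) ≤ (b ^ 2) ^ b := by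
    calc (s + b - 1).choose (b - 1) ≤ (s + b - 1) ^ (b - 1) := Nat.choose_le_pow _ _
      _ ≤ (b ^ 2) ^ (b - 1) := by
          refine Nat.pow_le_pow_left ?_ _
          have h2 : a * b + b ≤ b ^ 2 := by nlinarith
          omega
      _ ≤ (b ^ 2) ^ b := Nat.pow_le_pow_right (by positivity) (by omega)
  have h2 : b.factorial ≤ b ^ b := Nat.factorial_le_pow b
  have h3 : (((s + b - 1).choose (b - 1) * b.factorial : ℕ) : ℝ) ≤ (b : ℝ) ^ (3 * b) := by
    have h4 : (s + b - 1).choose (b - 1) * b.factorial ≤ b ^ (3 * b) := by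
      calc (s + b - 1).choose (b - 1) * b.factorial ≤ (b ^ 2) ^ b * b ^ b := Nat.mul_le_mul h1 h2
        _ = b ^ (3 * b) := by rw [← pow_mul, ← pow_add]; congr 1; ring
    exact_mod_cast h4
  have h4 : (a : ℝ) ^ (2 * m * N) ≤ (b : ℝ) ^ (2 * m * N) := by
    refine pow_le_pow_left₀ (Nat.cast_nonneg _) ?_ _
    exact_mod_cast (by omega : a ≤ b)
  have h5 : (a : ℝ) ^ (2 * m * N) * (((s + b - 1).choose (b - 1) * b.factorial : ℕ) : ℝ) ≤
      Real.exp (((2 * m * N + 3 * b : ℕ) : ℝ) * Real.log b) := by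
    calc (a : ℝ) ^ (2 * m * N) * (((s + b - 1).choose (b - 1) * b.factorial : ℕ) : ℝ)
        ≤ (b : ℝ) ^ (2 * m * N) * (b : ℝ) ^ (3 * b) :=
          mul_le_mul h4 h3 (Nat.cast_nonneg _) (by positivity)
      _ = (b : ℝ) ^ (2 * m * N + 3 * b) := (pow_add _ _ _).symm
      _ = Real.exp (((2 * m * N + 3 * b : ℕ) : ℝ) * Real.log b) := by
          rw [Real.exp_nat_mul, Real.exp_log hbR]
  refine h5.trans ?_
  -- the right side
  set x : ℝ := (n0 : ℝ) / b with hx
  have hx1 : x ≤ 1 := by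
    rw [hx, div_le_one hbR]
    exact_mod_cast hn0
  have hx0 : 0 ≤ x := by positivity
  have h6 : x / 2 ≤ Real.log (1 + x) := by
    have h7 := Real.one_sub_inv_le_log_of_pos (by linarith : (0 : ℝ) < 1 + x)
    have h8 : x / 2 ≤ 1 - (1 + x)⁻¹ := by
      have h9 : 1 - (1 + x)⁻¹ = x / (1 + x) := by
        field_simp
        ring
      rw [h9]
      exact div_le_div_of_nonneg_left hx0 (by linarith) (by linarith)
    linarith
  have h7 : (1 + x) ^ (m * (b - a)) = Real.exp (((m * (b - a) : ℕ) : ℝ) * Real.log (1 + x)) := by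
    rw [Real.exp_nat_mul, Real.exp_log (by linarith : (0 : ℝ) < 1 + x)]
  rw [h7]
  apply Real.exp_le_exp.2
  have h8 : ((m * (b - a) : ℕ) : ℝ) = m * ((b : ℝ) - a) := by
    rw [Nat.cast_mul, Nat.cast_sub (by omega)]
  rw [h8]
  have hba : 0 ≤ (b : ℝ) - a := by
    have : (a : ℝ) ≤ b := by exact_mod_cast (by omega : a ≤ b)
    linarith
  refine h.trans ?_
  exact mul_le_mul_of_nonneg_left h6 (by positivity)

/-- **The length class.** -/
theorem length_class {a : ℕ} (ha : 0 < a) {lam : Fin a → ℕ}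
    (hpos : 0 < ∑ i, lam i) :
    ∃ l m W : ℕ, 1 ≤ l ∧ l ≤ m ∧ m ≤ a ∧ l ≤ a ∧ W = ex lam (l - 1) ∧ 0 < W ∧
      ((∑ j, lam j : ℕ) : ℝ) ≤ (l : ℝ) * W * (1 + Real.log a) ∧
      W + 4 * ex lam (2 * m - 1) ≤ 4 * ex lam (m - 1) := by
  obtain ⟨i, hmax, hi⟩ := exists_class ha lam
  have hil : ex lam ((i : ℕ) + 1 - 1) = lam i := by
    rw [Nat.add_sub_cancel]
    exact T4.ex_of_lt lam i.2
  have h4 : 4 * ex lam (4 * ((i : ℕ) + 1) - 1) ≤ lam i := by
    by_cases h : 4 * ((i : ℕ) + 1) - 1 < a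
    · rw [T4.ex_of_lt lam h]
      refine four_mul_le i hmax ⟨_, h⟩ ?_
      show 4 * ((i : ℕ) + 1) ≤ 4 * ((i : ℕ) + 1) - 1 + 1
      omega
    · rw [ex_of_ge lam (not_lt.mp h)]
      exact Nat.zero_le _
  have hW : 0 < lam i := by
    rcases Nat.eq_zero_or_pos (lam i) with h | h
    · rw [h, Nat.mul_zero, Nat.cast_zero, zero_mul] at hi
      have : (0 : ℝ) < ((∑ j, lam j : ℕ) : ℝ) := by exact_mod_cast hpos
      linarith
    · exact h
  have hsum : ((∑ j, lam j : ℕ) : ℝ) ≤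
      (((i : ℕ) + 1 : ℕ) : ℝ) * (lam i : ℝ) * (1 + Real.log a) := by
    rw [← Nat.cast_mul]
    exact hi
  by_cases hq : 2 * ex lam (2 * ((i : ℕ) + 1) - 1) ≤ lam i
  · refine ⟨(i : ℕ) + 1, (i : ℕ) + 1, lam i, Nat.succ_pos _, le_rfl, i.2, i.2, hil.symm, hW, hsum,
      ?_⟩
    rw [hil]
    omega
  · have h2 : 2 * ((i : ℕ) + 1) ≤ a := by
      by_contra h
      apply hq
      rw [ex_of_ge lam (by omega)]
      exact Nat.zero_le _
    refine ⟨(i : ℕ) + 1, 2 * ((i : ℕ) + 1), lam i, Nat.succ_pos _, by omega, h2, i.2, hil.symm, hW,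
      hsum, ?_⟩
    have h3 : 2 * (2 * ((i : ℕ) + 1)) - 1 = 4 * ((i : ℕ) + 1) - 1 := by omega
    rw [h3]
    omega

/-- The columns of the class have length in `[m, 2 m)`. -/
lemma class_len {a m j : ℕ} {lam : Fin a → ℕ} (hlam : Antitone lam) (hm : 1 ≤ m) (hma : m ≤ a)
    (h1 : ex lam (2 * m - 1) ≤ j) (h2 : j < ex lam (m - 1)) :
    m ≤ cj lam j ∧ cj lam j ≤ 2 * m := by
  have hm1 : m - 1 < a := by omega
  constructor
  · rw [T4.ex_of_lt lam hm1] at h2
    have h3 := (lt_cj hlam ⟨m - 1, hm1⟩ j).2 h2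
    simp only at h3
    omega
  · by_contra hcon
    push Not at hcon
    have h3 := cj_le lam j
    have h4 : 2 * m - 1 < a := by omega
    rw [T4.ex_of_lt lam h4] at h1
    have h5 := (lt_cj hlam ⟨2 * m - 1, h4⟩ j).1 (by
      show 2 * m - 1 < cj lam j
      omega)
    omega

/-- **S6 for one shape.** -/
theorem num6_pair (hM : MatStmt) {ε δ c y : ℝ} {C : ℕ} (hδ : 0 < δ) (hc : c = δ / (1 + δ))
    {a b : ℕ} (ha : 0 < a) (hab : (1 + δ) * a ≤ b) (hy : y = (b : ℝ) ^ (ε / 2))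
    (hdes : ∀ m N : ℕ, (b : ℝ) ^ (ε / 2) ≤ m → m ≤ a → ((b : ℝ) / m) * Real.log b ^ C ≤ N →
      ∀ len : Fin N → ℕ, (∀ c, m ≤ len c ∧ len c ≤ 2 * m ∧ len c ≤ a) →
      ∃ R : ℕ, R ≤ m ∧ Design b R N len)
    (hlog1 : 1 ≤ Real.log b) (hlogy : 32 / c * Real.log b ^ (C + 1) ≤ y)
    (lam : Fin a → ℕ) (hlam : Antitone lam) (hsum : ∑ i, lam i = a * b)
    (hrow : ∀ i, (lam i : ℝ) ≤ a * (b : ℝ) ^ (1 - ε)) :
    plethMult a b a lam ≤ plethMult b a a lam := by
  have haR : (0 : ℝ) < a := by exact_mod_cast ha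
  have habR : (a : ℝ) < b := by nlinarith
  have hab' : a + 1 ≤ b := by exact_mod_cast habR
  have hb : 0 < b := by omega
  have hbR : (0 : ℝ) < b := by exact_mod_cast hb
  have hc0 : 0 < c := by
    rw [hc]
    positivity
  have hc1 : c ≤ 1 := by
    rw [hc, div_le_one (by linarith)]
    linarith
  obtain ⟨g, hg⟩ : ∃ g : ℝ, g = Real.log b := ⟨_, rfl⟩
  rw [← hg] at hlog1 hlogy
  have hg0 : 0 < g := by linarith
  have hgC : 1 ≤ g ^ C := one_le_pow₀ hlog1
  have hgC1 : g ≤ g ^ (C + 1) := by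
    calc g = 1 * g := (one_mul g).symm
      _ ≤ g ^ C * g := mul_le_mul_of_nonneg_right hgC hg0.le
      _ = g ^ (C + 1) := (pow_succ g C).symm
  have hcy : 32 * g ^ (C + 1) ≤ c * y := by
    have h1 := mul_le_mul_of_nonneg_left hlogy hc0.le
    calc 32 * g ^ (C + 1) = c * (32 / c * g ^ (C + 1)) := by
          field_simp
      _ ≤ c * y := h1
  have hy0 : 0 < y := by
    rw [hy]
    exact Real.rpow_pos_of_pos hbR _
  have hcy' : c * y ≤ y := by
    calc c * y ≤ 1 * y := mul_le_mul_of_nonneg_right hc1 hy0.le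
      _ = y := one_mul y
  have hy32 : 32 * g ≤ y := by linarith
  have hy1 : 1 ≤ y := by linarith
  have hy2 : (b : ℝ) ^ ε = y ^ 2 := by
    rw [hy, ← Real.rpow_natCast, ← Real.rpow_mul hbR.le]
    congr 1
    push_cast
    ring
  have hz : (b : ℝ) ^ (1 - ε) * y ^ 2 = b := by
    rw [← hy2, ← Real.rpow_add hbR, show (1 - ε + ε : ℝ) = 1 by ring, Real.rpow_one]
  have hz0 : 0 < (b : ℝ) ^ (1 - ε) := Real.rpow_pos_of_pos hbR _
  have hloga : 1 + Real.log a ≤ 2 * g := by
    have : Real.log a ≤ g := by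
      rw [hg]
      exact Real.log_le_log haR habR.le
    linarith
  have hloga0 : 0 ≤ Real.log a := Real.log_natCast_nonneg a
  -- `a` is large
  have hay : y ^ 2 ≤ a := by
    have h1 : (a : ℝ) * b ≤ a * (a * (b : ℝ) ^ (1 - ε)) := by
      have h2 : ((∑ i, lam i : ℕ) : ℝ) ≤ ∑ _i : Fin a, (a : ℝ) * (b : ℝ) ^ (1 - ε) := by
        push_cast
        exact Finset.sum_le_sum fun i _ => hrow i
      rw [hsum, Finset.sum_const, card_univ, Fintype.card_fin, nsmul_eq_mul] at h2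
      push_cast at h2
      exact h2
    have h2 : (b : ℝ) ≤ a * (b : ℝ) ^ (1 - ε) := le_of_mul_le_mul_left h1 haR
    have h3 : (b : ℝ) ^ (1 - ε) * y ^ 2 ≤ (b : ℝ) ^ (1 - ε) * a := by
      rw [hz]
      linarith
    exact le_of_mul_le_mul_left h3 hz0
  have hpos : 0 < ∑ i, lam i := by
    rw [hsum]
    exact Nat.mul_pos ha hb
  obtain ⟨l, m, W, hl1, hlm, hma, hla, hW, hW0, hlW, hcl⟩ := length_class ha hpos
  rw [hsum] at hlW
  have hlR : (0 : ℝ) < l := by exact_mod_cast hl1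
  have hWR : (0 : ℝ) < W := by exact_mod_cast hW0
  have hm1 : 1 ≤ m := hl1.trans hlm
  have hmR : (0 : ℝ) < m := by exact_mod_cast hm1
  have hlmR : (l : ℝ) ≤ m := by exact_mod_cast hlm
  have hmaR : (m : ℝ) ≤ a := by exact_mod_cast hma
  -- the length of the class
  have hly : y ≤ l := by
    have h1 : (W : ℝ) ≤ a * (b : ℝ) ^ (1 - ε) := by
      have h2 : l - 1 < a := by omega
      rw [hW, T4.ex_of_lt lam h2]
      exact hrow _
    have h2 : ((a * b : ℕ) : ℝ) ≤ (l : ℝ) * (a * (b : ℝ) ^ (1 - ε)) * (2 * g) := by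
      refine hlW.trans ?_
      have h3 : (l : ℝ) * W ≤ l * (a * (b : ℝ) ^ (1 - ε)) := mul_le_mul_of_nonneg_left h1 hlR.le
      exact mul_le_mul h3 hloga (by linarith) (by positivity)
    push_cast at h2
    have h3 : (a : ℝ) * (b : ℝ) ^ (1 - ε) * y ^ 2 ≤ (a : ℝ) * (b : ℝ) ^ (1 - ε) * (2 * g * l) := by
      calc (a : ℝ) * (b : ℝ) ^ (1 - ε) * y ^ 2 = a * b := by rw [mul_assoc, hz]
        _ ≤ (l : ℝ) * (a * (b : ℝ) ^ (1 - ε)) * (2 * g) := h2
        _ = _ := by ring
    have h4 : y ^ 2 ≤ 2 * g * l := le_of_mul_le_mul_left h3 (by positivity)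
    have h5 : 2 * g * l ≤ y * l := mul_le_mul_of_nonneg_right (by linarith) hlR.le
    have h6 : y * y ≤ y * l := by
      calc y * y = y ^ 2 := (sq y).symm
        _ ≤ 2 * g * l := h4
        _ ≤ y * l := h5
    exact le_of_mul_le_mul_left h6 hy0
  have hmy : y ≤ m := hly.trans hlmR
  -- the mass of the class
  have hmW : (a : ℝ) * b ≤ m * W * (2 * g) := by
    have h1 : ((a * b : ℕ) : ℝ) ≤ m * W * (2 * g) := by
      refine hlW.trans ?_
      have h3 : (l : ℝ) * W ≤ m * W := mul_le_mul_of_nonneg_right hlmR hWR.le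
      exact mul_le_mul h3 hloga (by linarith) (by positivity)
    push_cast at h1
    exact h1
  -- the number of the marker columns
  obtain ⟨N, hN⟩ : ∃ N : ℕ, N = ⌈((b : ℝ) / m) * g ^ C⌉₊ := ⟨_, rfl⟩
  have hNge : ((b : ℝ) / m) * g ^ C ≤ N := by
    rw [hN]
    exact Nat.le_ceil _
  have hbm1 : 1 ≤ (b : ℝ) / m := by
    rw [one_le_div hmR]
    linarith
  have hNle : (N : ℝ) ≤ 2 * (((b : ℝ) / m) * g ^ C) := by
    have h1 := Nat.ceil_lt_add_one (by positivity : 0 ≤ ((b : ℝ) / m) * g ^ C)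
    rw [← hN] at h1
    have h2 : 1 * 1 ≤ ((b : ℝ) / m) * g ^ C := mul_le_mul hbm1 hgC zero_le_one (by linarith)
    linarith
  have hmN : (m : ℝ) * N ≤ 2 * b * g ^ C := by
    calc (m : ℝ) * N ≤ m * (2 * (((b : ℝ) / m) * g ^ C)) := mul_le_mul_of_nonneg_left hNle hmR.le
      _ = 2 * b * g ^ C := by
        field_simp
  have h8N : 8 * N ≤ W := by
    have h1 : (m : ℝ) * (2 * g) * (8 * N) ≤ m * (2 * g) * W := by
      calc (m : ℝ) * (2 * g) * (8 * N) = 16 * g * (m * N) := by ring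
        _ ≤ 16 * g * (2 * b * g ^ C) := mul_le_mul_of_nonneg_left hmN (by positivity)
        _ = 32 * g ^ (C + 1) * b := by rw [pow_succ]; ring
        _ ≤ a * b := by
            refine mul_le_mul_of_nonneg_right ?_ hbR.le
            have h2 : y ≤ y ^ 2 := by nlinarith
            linarith
        _ ≤ m * W * (2 * g) := hmW
        _ = m * (2 * g) * W := by ring
    have h2 : (8 : ℝ) * N ≤ W := le_of_mul_le_mul_left h1 (by positivity)
    exact_mod_cast h2
  obtain ⟨s, hs⟩ : ∃ s : ℕ, s = ex lam (2 * m - 1) := ⟨_, rfl⟩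
  obtain ⟨t, ht⟩ : ∃ t : ℕ, t = ex lam (m - 1) := ⟨_, rfl⟩
  rw [← hs, ← ht] at hcl
  have hclass : ∀ c : Fin N, m ≤ cj lam (s + c) ∧ cj lam (s + c) ≤ 2 * m := by
    intro c
    have := c.2
    refine class_len hlam hm1 hma ?_ ?_
    · rw [← hs]
      omega
    · rw [← ht]
      omega
  obtain ⟨R, hRm, hd⟩ := hdes m N (by rw [← hy]; exact hmy) hma (by rw [← hg]; exact hNge)
    (fun c => cj lam (s + c)) (fun c => ⟨(hclass c).1, (hclass c).2, cj_le lam _⟩)
  have hmat := hM a b R N (fun c => cj lam (s + c)) lam (et6 lam s N) hb hd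
    (fun c => ⟨hRm.trans (hclass c).1, cj_le lam _⟩) (et6_anti hlam s N) (by
      intro i
      simp only [lt_cj hlam]
      exact card_win6 (lam i) s N) hsum
  have hsle : ∑ i, et6 lam s N i ≤ a * b := by
    rw [← hsum]
    refine Finset.sum_le_sum fun i _ => ?_
    have := card_win6 (lam i) s N
    simp only [et6]
    omega
  -- the rows
  obtain ⟨n0, hn0⟩ : ∃ n0 : ℕ, n0 = min (t - N) b := ⟨_, rfl⟩
  have hrows : ∀ i : Fin a, (i : ℕ) < m → n0 ≤ et6 lam s N i := by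
    intro i hi
    have h1 : t ≤ lam i := by
      have h2 : m - 1 < a := by omega
      rw [ht, T4.ex_of_lt lam h2]
      refine hlam ?_
      rw [Fin.le_def]
      show (i : ℕ) ≤ m - 1
      omega
    simp only [et6]
    omega
  have hW8 : W ≤ 8 * (t - N) := by omega
  have hmn0 : y * b ≤ m * n0 := by
    rw [hn0]
    rcases le_total (t - N) b with h | h
    · rw [min_eq_left h]
      have h1 : (W : ℝ) ≤ 8 * ((t - N : ℕ) : ℝ) := by exact_mod_cast hW8
      have h2 : (16 * g) * (y * b) ≤ (16 * g) * (m * ((t - N : ℕ) : ℝ)) := by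
        calc (16 * g) * (y * b) = (16 * g) * y * b := by ring
          _ ≤ y * y * b := by gcongr; linarith
          _ = y ^ 2 * b := by ring
          _ ≤ a * b := mul_le_mul_of_nonneg_right hay hbR.le
          _ ≤ m * W * (2 * g) := hmW
          _ ≤ m * (8 * ((t - N : ℕ) : ℝ)) * (2 * g) := by gcongr
          _ = _ := by ring
      exact le_of_mul_le_mul_left h2 (by positivity)
    · rw [min_eq_right h]
      exact mul_le_mul_of_nonneg_right hmy hbR.le
  have hcb : c * b ≤ (b : ℝ) - a := by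
    have h1 : (1 - c) * (1 + δ) = 1 := by
      rw [hc]
      field_simp
      ring
    have h2 : (a : ℝ) = (1 - c) * ((1 + δ) * a) := by
      rw [← mul_assoc, h1, one_mul]
    have h3 : (1 - c) * ((1 + δ) * a) ≤ (1 - c) * b :=
      mul_le_mul_of_nonneg_left hab (by linarith)
    linarith
  refine compare6 (n0 := n0) hlam ha (by omega) hma (fun c => (hclass c).2) hrows ?_ hmat
  refine fin_gen hab' hsle (by rw [hn0]; exact min_le_right _ _) ?_
  rw [← hg]
  have h1 : ((2 * m * N + 3 * b : ℕ) : ℝ) ≤ 7 * b * g ^ C := by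
    push_cast
    have h2 : (b : ℝ) * 1 ≤ b * g ^ C := mul_le_mul_of_nonneg_left hgC hbR.le
    linarith
  calc ((2 * m * N + 3 * b : ℕ) : ℝ) * g ≤ 7 * b * g ^ C * g :=
        mul_le_mul_of_nonneg_right h1 hg0.le
    _ = 7 * g ^ (C + 1) * b := by rw [pow_succ]; ring
    _ ≤ (c * y / 2) * b := by
        refine mul_le_mul_of_nonneg_right ?_ hbR.le
        have : 0 ≤ g ^ (C + 1) := by positivity
        linarith
    _ = c / 2 * (y * b) := by ring
    _ ≤ c / 2 * (m * n0) := mul_le_mul_of_nonneg_left hmn0 (by positivity)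
    _ = m * (c * b) * ((n0 : ℝ) / b / 2) := by
        field_simp
    _ ≤ m * ((b : ℝ) - a) * ((n0 : ℝ) / b / 2) := by gcongr

/-- Eventual inequality. -/
theorem ev6 (e K : ℝ) (C : ℕ) (he : 0 < e) : ∀ᶠ b : ℕ in Filter.atTop,
    1 ≤ Real.log b ∧ K * Real.log b ^ (C + 1) ≤ (b : ℝ) ^ e := by
  have h1 : ∀ᶠ b : ℕ in Filter.atTop, (1 : ℝ) ≤ Real.log b :=
    (Filter.Tendsto.comp Real.tendsto_log_atTop tendsto_natCast_atTop_atTop).eventually_ge_atTop 1
  have h3 : (fun x : ℝ => Real.log x ^ (C + 1)) =o[Filter.atTop] fun x => x ^ e := by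
    have h2 := isLittleO_log_rpow_rpow_atTop ((C + 1 : ℕ) : ℝ) he
    refine h2.congr' ?_ (by filter_upwards with x; rfl)
    filter_upwards with x
    rw [Real.rpow_natCast]
  have h4 := (h3.const_mul_left K).bound (show (0 : ℝ) < 1 by norm_num)
  have h5 := tendsto_natCast_atTop_atTop (R := ℝ) |>.eventually h4
  filter_upwards [h1, h5] with b hb1 hb
  refine ⟨hb1, ?_⟩
  rw [one_mul] at hb
  refine (le_abs_self _).trans (hb.trans ?_)
  rw [Real.norm_eq_abs, abs_of_nonneg (by positivity)]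

/-- **[S6-NUM]** -/
theorem num6 : Vale.Agent.P181.S6.Num6 := by
  intro hD hM ε δ hε hδ
  obtain ⟨C, b0, hb0⟩ := hD (ε / 2) δ (by positivity) hδ
  obtain ⟨c, hc⟩ : ∃ c : ℝ, c = δ / (1 + δ) := ⟨_, rfl⟩
  obtain ⟨b1, hb1⟩ := Filter.eventually_atTop.1 (ev6 (ε / 2) (32 / c) C (by positivity))
  filter_upwards [Filter.eventually_ge_atTop b0, Filter.eventually_ge_atTop b1,
    Filter.eventually_ge_atTop 1] with a ha0 ha1 ha b hab lam hlam hsum hrow
  have haR : (0 : ℝ) < a := by exact_mod_cast ha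
  have habR : (a : ℝ) < b := by nlinarith
  have hab' : a < b := by exact_mod_cast habR
  obtain ⟨hlog1, hlogy⟩ := hb1 b (by omega)
  exact num6_pair hM hδ hc ha hab rfl (fun m N => hb0 b a m N (by omega) hab) hlog1 hlogy lam hlam
    hsum hrow

end Vale.Agent.P181.H914
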