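import Vale.Agent.P181.H914.Alg7
import Vale.Agent.P181.H727.Forced7

set_option autoImplicit false

open scoped Classical

/-!
# P181, T7: forcing by short services

`two_level`: the free labels sit on the free letters, when the services in the columns of length at
most `l` of the pure letters of classes `< l` are more numerous than those of the free letters.
-/

namespace Vale.Agent.P181.T7

open Vale.Agent.P181.T4

section abstr

variable {T Q : Type*} [Fintype T] [Fintype Q] {R : ℕ}

/-- **Two-level forcing.** `sh` = number of services in columns of length at most `l`. -/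
theorem two_level (cls : T → Fin R) (χ : T ⊕ Q → Option (Fin R))
    (hcard : ∀ i : Fin R, (Finset.univ.filter fun p => χ p = some i).card =
      (Finset.univ.filter fun t => cls t = i).card) (l K : ℕ) (sh : T ⊕ Q → ℕ)
    (hlab : ∀ p i, χ p = some i → l ≤ (i : ℕ) → sh p = 0)
    (hpure : ∀ t, (cls t : ℕ) < l → K < sh (Sum.inl t))
    (hfree : ∀ q, sh (Sum.inr q) ≤ K) (hpos : l < R → ∀ q, 0 < sh (Sum.inr q))
    (hsum : ∑ p ∈ Finset.univ.filter (fun p => χ p = none), sh p ≤ ∑ q, sh (Sum.inr q)) :
    (∀ t, χ (Sum.inl t) ≠ none) ∧ ∀ q, χ (Sum.inr q) = none := by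
  -- the labels of classes `≥ l` fill the pure letters of classes `≥ l`
  set A : Finset (T ⊕ Q) := Finset.univ.filter fun p => ∃ i : Fin R, χ p = some i ∧ l ≤ (i : ℕ)
    with hA
  set B : Finset (T ⊕ Q) := Finset.univ.filter fun p => ∃ t, p = Sum.inl t ∧ l ≤ (cls t : ℕ)
    with hB
  have hAB : A ⊆ B := by
    intro p hp
    rw [hA, Finset.mem_filter] at hp
    obtain ⟨-, i, hi, hli⟩ := hp
    have h0 := hlab p i hi hli
    rw [hB, Finset.mem_filter]
    refine ⟨Finset.mem_univ _, ?_⟩
    rcases p with t | q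
    · refine ⟨t, rfl, ?_⟩
      by_contra hlt
      rw [not_le] at hlt
      have := hpure t hlt
      omega
    · exfalso
      have h1 : l < R := lt_of_le_of_lt hli i.2
      have := hpos h1 q
      omega
  have hcA : A.card = ∑ i ∈ Finset.univ.filter (fun i : Fin R => l ≤ (i : ℕ)),
      (Finset.univ.filter fun p => χ p = some i).card := by
    rw [← Finset.card_biUnion]
    · congr 1
      ext p
      simp only [hA, Finset.mem_filter, Finset.mem_univ, true_and, Finset.mem_biUnion]
      constructor
      · rintro ⟨i, h1, h2⟩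
        exact ⟨i, h2, h1⟩
      · rintro ⟨i, h1, h2⟩
        exact ⟨i, h2, h1⟩
    · intro i _ j _ hij
      rw [Function.onFun, Finset.disjoint_left]
      intro p hp hp'
      rw [Finset.mem_filter] at hp hp'
      rw [hp.2] at hp'
      exact hij (Option.some.inj hp'.2)
  have hcB : B.card = ∑ i ∈ Finset.univ.filter (fun i : Fin R => l ≤ (i : ℕ)),
      (Finset.univ.filter fun t => cls t = i).card := by
    rw [← Finset.card_biUnion]
    · have h1 : B = ((Finset.univ.filter (fun i : Fin R => l ≤ (i : ℕ))).biUnion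
          (fun i => Finset.univ.filter fun t => cls t = i)).map
          ⟨Sum.inl, Sum.inl_injective⟩ := by
        ext p
        simp only [hB, Finset.mem_filter, Finset.mem_univ, true_and, Finset.mem_map,
          Finset.mem_biUnion, Function.Embedding.coeFn_mk]
        constructor
        · rintro ⟨t, rfl, h⟩
          exact ⟨t, ⟨cls t, h, rfl⟩, rfl⟩
        · rintro ⟨t, ⟨i, hi, hti⟩, rfl⟩
          exact ⟨t, rfl, by rw [hti]; exact hi⟩
      rw [h1, Finset.card_map]
    · intro i _ j _ hij
      rw [Function.onFun, Finset.disjoint_left]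
      intro p hp hp'
      rw [Finset.mem_filter] at hp hp'
      exact hij (hp.2.symm.trans hp'.2)
  have hAeq : A = B := by
    apply Finset.eq_of_subset_of_card_le hAB
    rw [hcA, hcB]
    exact (Finset.sum_congr rfl (fun i _ => (hcard i).symm)).le
  -- displaced labels
  set S : Finset Q := Finset.univ.filter fun q => χ (Sum.inr q) ≠ none with hS
  set S' : Finset T := Finset.univ.filter fun t => χ (Sum.inl t) = none with hS'
  have hcardS : S.card = S'.card := by
    have h1 := H727.card_some cls χ hcard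
    have h2 : (Finset.univ.filter fun p => χ p ≠ none).card =
        (Finset.univ.filter fun t : T => χ (Sum.inl t) ≠ none).card + S.card := by
      rw [hS, Finset.card_filter, Finset.card_filter, Finset.card_filter, Fintype.sum_sum_type]
    have h3 : (Finset.univ.filter fun t : T => χ (Sum.inl t) ≠ none).card + S'.card =
        Fintype.card T := by
      rw [hS', ← Finset.card_univ, add_comm]
      exact Finset.card_filter_add_card_filter_not _
    omega
  have hS'l : ∀ t ∈ S', (cls t : ℕ) < l := by
    intro t ht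
    by_contra hlt
    rw [not_lt] at hlt
    have h1 : Sum.inl t ∈ A := by
      rw [hAeq, hB, Finset.mem_filter]
      exact ⟨Finset.mem_univ _, t, rfl, hlt⟩
    rw [hA, Finset.mem_filter] at h1
    obtain ⟨-, i, hi, -⟩ := h1
    rw [hS', Finset.mem_filter] at ht
    rw [ht.2] at hi
    exact absurd hi (by simp)
  have h1 : ∑ p ∈ Finset.univ.filter (fun p => χ p = none), sh p =
      ∑ t ∈ S', sh (Sum.inl t) + ∑ q ∈ Finset.univ.filter (fun q => χ (Sum.inr q) = none),
        sh (Sum.inr q) := by
    rw [Finset.sum_filter, Fintype.sum_sum_type, hS', Finset.sum_filter, Finset.sum_filter]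
  have h2 : ∑ q, sh (Sum.inr q) = ∑ q ∈ S, sh (Sum.inr q) +
      ∑ q ∈ Finset.univ.filter (fun q => χ (Sum.inr q) = none), sh (Sum.inr q) := by
    rw [hS, add_comm]
    exact (Finset.sum_filter_add_sum_filter_not Finset.univ
      (fun q => χ (Sum.inr q) = none) _).symm
  have h3 : ∑ q ∈ S, sh (Sum.inr q) ≤ S.card * K := by
    rw [← smul_eq_mul]
    exact Finset.sum_le_card_nsmul _ _ _ (fun q _ => hfree q)
  have h4 : S'.card * (K + 1) ≤ ∑ t ∈ S', sh (Sum.inl t) := by
    rw [← smul_eq_mul]
    exact Finset.card_nsmul_le_sum _ _ _ (fun t ht => hpure t (hS'l t ht))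
  have h5 : S'.card * (K + 1) ≤ S'.card * K := by
    rw [← hcardS] at h4 ⊢
    omega
  have h6 : S'.card = 0 := by
    by_contra h0
    have : S'.card * K < S'.card * (K + 1) :=
      Nat.mul_lt_mul_of_pos_left (Nat.lt_succ_self _) (Nat.pos_of_ne_zero h0)
    omega
  have h7 : S.card = 0 := by omega
  rw [Finset.card_eq_zero] at h6 h7
  constructor
  · intro t ht
    have : t ∈ S' := by
      rw [hS', Finset.mem_filter]
      exact ⟨Finset.mem_univ _, ht⟩
    rw [h6] at this
    simp at this
  · intro q
    by_contra h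
    have : q ∈ S := by
      rw [hS, Finset.mem_filter]
      exact ⟨Finset.mem_univ _, h⟩
    rw [h7] at this
    simp at this

end abstr

namespace Top7

variable {m R N : ℕ} {T C : Type} [Fintype T] [Fintype C] {cls : T → ℕ}
  (Fr : Top7 m R N T cls C)

lemma sum_shc (l : ℕ) (S : Finset (T ⊕ Fin N)) : ∑ p ∈ S, shc l Fr.len Fr.srv p =
    ∑ c ∈ Finset.univ.filter (fun c => Fr.len c ≤ l),
      ((Finset.range (Fr.len c)).filter (fun i => Fr.srv c i ∈ S)).card := by
  unfold shc
  rw [Finset.sum_comm, Finset.sum_filter]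
  apply Finset.sum_congr rfl
  intro c _
  by_cases hc : Fr.len c ≤ l
  · simp only [hc, if_true]
    simp only [Finset.card_filter]
    rw [Finset.sum_comm]
    apply Finset.sum_congr rfl
    intro i _
    rw [Finset.sum_ite_eq]
  · simp only [hc, if_false, Finset.sum_const_zero]

/-- the number of incidences with short columns, in terms of the letters of the columns -/
lemma sum_none_eq {l : ℕ} (hl : l ≤ R) (lo : (c : C) → Fin (Fr.len c - R) → Fin N)
    (χ : T ⊕ Fin N → Option (Fin R)) :
    ∑ p ∈ Finset.univ.filter (fun p => χ p = none), shc l Fr.len Fr.srv p =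
      ∑ c ∈ Finset.univ.filter (fun c => Fr.len c ≤ l),
        (Finset.univ.filter fun j => χ (Fr.J c (lo c) j) = none).card := by
  rw [sum_shc]
  apply Finset.sum_congr rfl
  intro c hc
  rw [Finset.mem_filter] at hc
  rw [Finset.card_filter, Finset.card_filter, ← Fin.sum_univ_eq_sum_range
    (fun i => if Fr.srv c i ∈ Finset.univ.filter (fun p => χ p = none) then 1 else 0)]
  apply Finset.sum_congr rfl
  intro j _
  rw [J_of_lt (lt_of_lt_of_le j.2 (hc.2.trans hl))]
  simp only [Finset.mem_filter, Finset.mem_univ, true_and]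

/-- the marks in the rows `< l` -/
lemma sum_typ_eq (l : ℕ) (hl : l ≤ R)
    (hshort : ∀ c, ∀ i < l, i < Fr.len c → ∀ q, Fr.srv c i = Sum.inr q → Fr.len c ≤ l) :
    ∑ i ∈ Finset.range l, ∑ q, Fr.typ q i = ∑ q, shc l Fr.len Fr.srv (Sum.inr q) := by
  rw [Finset.sum_comm]
  apply Finset.sum_congr rfl
  intro q _
  unfold typ shc
  simp only [Finset.card_filter]
  rw [Finset.sum_comm]
  apply Finset.sum_congr rfl
  intro c _
  by_cases hc : Fr.len c ≤ l
  · rw [if_pos hc]
    rw [← Finset.sum_subset (Finset.range_subset_range.2 hc)]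
    · apply Finset.sum_congr rfl
      intro i hi
      rw [Finset.mem_range] at hi
      have h1 : i < R := by omega
      simp only [h1, hi, true_and]
    · intro i _ hi
      rw [Finset.mem_range] at hi
      rw [if_neg (fun h => hi h.2.1)]
  · rw [if_neg hc]
    apply Finset.sum_eq_zero
    intro i hi
    rw [Finset.mem_range] at hi
    rw [if_neg]
    rintro ⟨-, h2, h3⟩
    exact hc (hshort c i hi h2 q h3)

/-- **Two-level forcing for frames**: the conclusion is the first half of `Forced`. -/
theorem two_level (hcls : ∀ t, cls t < R) {t : ℕ → ℕ}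
    (lo : (c : C) → Fin (Fr.len c - R) → Fin N) (l K : ℕ) (hl : l ≤ R)
    (hpure : ∀ x, cls x < l → K < shc l Fr.len Fr.srv (Sum.inl x))
    (hfree : ∀ q, shc l Fr.len Fr.srv (Sum.inr q) ≤ K)
    (hpos : l < R → ∀ q, 0 < shc l Fr.len Fr.srv (Sum.inr q))
    (hsum : ∑ i ∈ Finset.range l, t i ≤ ∑ q, shc l Fr.len Fr.srv (Sum.inr q))
    (χ : T ⊕ Fin N → Option (Fin R))
    (h1 : ∀ i : Fin R, (Finset.univ.filter fun p => χ p = some i).card =
      (Finset.univ.filter fun x : T => cls x = i).card)
    (h3 : ∀ c, ∀ j : Fin (Fr.len c), ∀ k : Fin R, χ (Fr.J c (lo c) j) = some k →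
      (k : ℕ) < Fr.len c)
    (h4 : ∑ c ∈ Finset.univ.filter (fun c => Fr.len c ≤ l),
      (Finset.univ.filter fun j => χ (Fr.J c (lo c) j) = none).card ≤
        ∑ i ∈ Finset.range l, t i) :
    (∀ x, χ (Sum.inl x) ≠ none) ∧ ∀ q, χ (Sum.inr q) = none := by
  apply T7.two_level (fun x => (⟨cls x, hcls x⟩ : Fin R)) χ _ l K
    (fun p => shc l Fr.len Fr.srv p) _ (fun x hx => hpure x hx) hfree hpos
  · rw [Fr.sum_none_eq hl lo χ]
    exact h4.trans hsum
  · intro i
    rw [h1 i]
    congr 1
    ext x
    simp [Fin.ext_iff]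
  · intro p i hp hli
    unfold shc
    apply Finset.sum_eq_zero
    intro c _
    by_cases hc : Fr.len c ≤ l
    · rw [if_pos hc, Finset.card_eq_zero, Finset.filter_eq_empty_iff]
      intro j hj hs
      rw [Finset.mem_range] at hj
      have h5 := h3 c ⟨j, hj⟩ i (by
        rw [J_of_lt (j := ⟨j, hj⟩) (by simp only; omega)]
        simp only
        rw [hs]
        exact hp)
      omega
    · rw [if_neg hc]

/-- From free labels on free letters to `Forced`: a chain of columns with full pure tops, two
consecutive ones differing in one row, and strictly decreasing numbers of pure letters. -/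
theorem forced_of_chain (hcls : ∀ t, cls t < R) {t : ℕ → ℕ}
    (lo : (c : C) → Fin (Fr.len c - R) → Fin N)
    (hfree : ∀ χ : T ⊕ Fin N → Option (Fin R),
      (∀ i : Fin R, (Finset.univ.filter fun p => χ p = some i).card =
        (Finset.univ.filter fun x : T => cls x = i).card) →
      (∀ c, ∀ j j' : Fin (Fr.len c), j ≠ j' → χ (Fr.J c (lo c) j) = χ (Fr.J c (lo c) j') →
        χ (Fr.J c (lo c) j) = none) →
      (∀ c, ∀ j : Fin (Fr.len c), ∀ k : Fin R, χ (Fr.J c (lo c) j) = some k →
        (k : ℕ) < Fr.len c) →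
      (∀ l ≤ R, ∑ c ∈ Finset.univ.filter (fun c => Fr.len c ≤ l),
        (Finset.univ.filter fun j => χ (Fr.J c (lo c) j) = none).card ≤
          ∑ i ∈ Finset.range l, t i) →
      (∀ x, χ (Sum.inl x) ≠ none) ∧ ∀ q, χ (Sum.inr q) = none)
    (L : ℕ) (hL : 0 < L) (cc : ℕ → C) (hlen : ∀ k < L, R ≤ Fr.len (cc k))
    (htop : ∀ k < L, ∀ i < R, ∃ x, Fr.srv (cc k) i = Sum.inl x ∧ cls x = i)
    (hstep : ∀ k, k + 1 < L → ∃ i0, ∀ i < R, i ≠ i0 → Fr.srv (cc (k + 1)) i = Fr.srv (cc k) i)
    (hcover : ∀ x, ∃ k < L, Fr.srv (cc k) (cls x) = Sum.inl x)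
    (hw : ∀ i i' : Fin R, i < i' → (Finset.univ.filter fun x : T => cls x = i').card <
      (Finset.univ.filter fun x : T => cls x = i).card) :
    Fr.Forced t lo := by
  intro χ h1 h2 h3 h4
  obtain ⟨g1, g2⟩ := hfree χ h1 h2 h3 h4
  refine ⟨?_, g2⟩
  set cls' : T → Fin R := fun x => ⟨cls x, hcls x⟩ with hcls'
  have hf : ∀ i : Fin R, (Finset.univ.filter fun x : T => cls' x = i) =
      Finset.univ.filter fun x : T => cls x = i := by
    intro i
    ext x
    simp [hcls', Fin.ext_iff]
  have hR : ∀ i : Fin R, ∃ x : T, cls x = i := by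
    intro i
    obtain ⟨x, -, hx⟩ := htop 0 hL i i.2
    exact ⟨x, hx⟩
  by_cases hR0 : R = 0
  · intro x
    exact absurd (hcls x) (by omega)
  have hRp : 0 < R := Nat.pos_of_ne_zero hR0
  obtain ⟨x0, -⟩ := hR ⟨0, hRp⟩
  set col : ℕ → Fin R → T := fun k i =>
    if h : k < L then (htop k h i i.2).choose else x0 with hcol
  have hcolk : ∀ k < L, ∀ i : Fin R, Fr.srv (cc k) i = Sum.inl (col k i) := by
    intro k hk i
    rw [hcol]
    simp only [hk, dif_pos]
    exact (htop k hk i i.2).choose_spec.1
  have key := H727.link (Q := Fin N) cls' χ (fun i => by rw [h1 i, hf i]) g1 g2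
    (fun p p' => ∃ c, ∃ j j' : Fin (Fr.len c), j ≠ j' ∧ Fr.J c (lo c) j = p ∧
      Fr.J c (lo c) j' = p') (by
        rintro p p' ⟨c, j, j', hj, rfl, rfl⟩ hχ
        exact h2 c j j' hj hχ) L hL col (by
        intro k hk i i' hi
        have hl := hlen k hk
        refine ⟨cc k, ⟨i, lt_of_lt_of_le i.2 hl⟩, ⟨i', lt_of_lt_of_le i'.2 hl⟩, ?_, ?_, ?_⟩
        · intro h
          exact hi (Fin.ext (by simpa using h))
        · rw [J_of_lt (j := ⟨(i : ℕ), lt_of_lt_of_le i.2 hl⟩) i.2]
          exact hcolk k hk i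
        · rw [J_of_lt (j := ⟨(i' : ℕ), lt_of_lt_of_le i'.2 hl⟩) i'.2]
          exact hcolk k hk i') (by
        intro k hk
        obtain ⟨i0, hi0⟩ := hstep k hk
        by_cases hi0R : i0 < R
        · refine ⟨⟨i0, hi0R⟩, fun i hi => ?_⟩
          have h5 := hi0 i i.2 (fun h => hi (Fin.ext h))
          rw [hcolk _ hk, hcolk _ (by omega)] at h5
          exact Sum.inl_injective h5
        · refine ⟨⟨0, hRp⟩, fun i _ => ?_⟩
          have h5 := hi0 i i.2 (fun h => hi0R (by omega))
          rw [hcolk _ hk, hcolk _ (by omega)] at h5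
          exact Sum.inl_injective h5) (by
        intro x
        obtain ⟨k, hk, hx⟩ := hcover x
        refine ⟨k, hk, ?_⟩
        have h5 := hcolk k hk (cls' x)
        rw [show ((cls' x : Fin R) : ℕ) = cls x from rfl, hx] at h5
        exact (Sum.inl_injective h5).symm) (by
        intro i i' hi
        rw [hf, hf]
        exact hw i i' hi)
  intro x
  exact ⟨cls' x, key x, rfl⟩

end Top7

end Vale.Agent.P181.T7
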