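import Vale.Agent.P181.H914.Frame

set_option autoImplicit false

open MvPolynomial
open scoped Classical

namespace Vale.Agent.P181.T4

open Vale.Agent.P181.FR Vale.Agent.P181.H188W

namespace Frame

variable {m R N : ℕ} {T C : Type} [Fintype T] [Fintype C] (Fr : Frame m R N T C)

/-- The factor of the column `c` when the position `p` carries the vector of `π p`. -/
noncomputable def D (z : Fin N → ℕ → ℂ) (π : Equiv.Perm (T ⊕ Fin N)) (c : C)
    (lo : Fin (Fr.len c - R) → Fin N) : MvPolynomial (ℕ × Fin N) ℂ :=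
  Matrix.det (Matrix.of fun j k : Fin (Fr.len c) =>
    ent R Fr.cls Fr.mix z (π (Fr.J c lo j)) k)

/-- The exponent of the monomial `∏ M_q(x_q)`. -/
noncomputable def mu : (ℕ × Fin N) →₀ ℕ :=
  ∑ c ∈ Finset.univ.filter Fr.blk, Finsupp.single (Fr.bi c, Fr.bq c) 1

/-- the positions whose image is a free point -/
noncomputable def SS (π : Equiv.Perm (T ⊕ Fin N)) : Finset (T ⊕ Fin N) :=
  Finset.univ.filter (fun p => (π p).isRight = true)

lemma J_of_lt {c : C} {lo : Fin (Fr.len c - R) → Fin N} {j : Fin (Fr.len c)} (h : (j : ℕ) < R) :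
    Fr.J c lo j = Fr.srv c j := by
  unfold J
  rw [dif_pos h]

lemma J_of_ge {c : C} {lo : Fin (Fr.len c - R) → Fin N} {j : Fin (Fr.len c)} (h : R ≤ (j : ℕ)) :
    Fr.J c lo j = Sum.inr (lo ⟨j - R, by omega⟩) := by
  unfold J
  rw [dif_neg (by omega)]

lemma degree_mu : Fr.mu.degree = (Finset.univ.filter Fr.blk).card := by
  unfold mu
  rw [map_sum, Finset.card_eq_sum_ones]
  apply Finset.sum_congr rfl
  intro c _
  rw [Finsupp.degree_single]

lemma sum_shc (S : Finset (T ⊕ Fin N)) : ∑ p ∈ S, shc R Fr.len Fr.srv p =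
    ∑ c ∈ Finset.univ.filter (fun c => Fr.len c ≤ R),
      ((Finset.range (Fr.len c)).filter (fun i => Fr.srv c i ∈ S)).card := by
  unfold shc
  rw [Finset.sum_comm, Finset.sum_filter]
  apply Finset.sum_congr rfl
  intro c _
  by_cases hc : Fr.len c ≤ R
  · simp only [hc, if_true]
    simp only [Finset.card_filter]
    rw [Finset.sum_comm]
    apply Finset.sum_congr rfl
    intro i _
    rw [Finset.sum_ite_eq]
  · simp only [hc, if_false, Finset.sum_const_zero]

lemma card_right_short {c : C} (hc : Fr.len c ≤ R) :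
    ((Finset.range (Fr.len c)).filter (fun i => (Fr.srv c i).isRight = true)).card =
      if Fr.blk c then 1 else 0 := by
  by_cases hb : Fr.blk c
  · rw [if_pos hb, Finset.card_eq_one]
    refine ⟨Fr.bi c, ?_⟩
    ext i
    rw [Finset.mem_filter, Finset.mem_range, Finset.mem_singleton]
    constructor
    · rintro ⟨hi, hr⟩
      by_contra hne
      obtain ⟨t, ht, -⟩ := Fr.blk_pure c hb i hi hne
      rw [ht] at hr
      exact absurd hr (by simp)
    · rintro rfl
      exact ⟨Fr.bi_lt c hb, by rw [Fr.blk_srv c hb]; rfl⟩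
  · rw [if_neg hb, Finset.card_eq_zero, Finset.filter_eq_empty_iff]
    intro i hi hr
    rw [Finset.mem_range] at hi
    obtain ⟨t, ht, -⟩ := Fr.serve c hb i hi (by omega)
    rw [ht] at hr
    exact absurd hr (by simp)

lemma sum_shc_right : ∑ p ∈ Finset.univ.filter (fun p : T ⊕ Fin N => p.isRight = true),
    shc R Fr.len Fr.srv p = (Finset.univ.filter Fr.blk).card := by
  rw [sum_shc]
  have h1 : ∀ c ∈ Finset.univ.filter (fun c => Fr.len c ≤ R),
      ((Finset.range (Fr.len c)).filter (fun i => Fr.srv c i ∈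
        Finset.univ.filter (fun p : T ⊕ Fin N => p.isRight = true))).card =
      if Fr.blk c then 1 else 0 := by
    intro c hc
    rw [Finset.mem_filter] at hc
    rw [← Fr.card_right_short hc.2]
    congr 1
    ext i
    simp
  rw [Finset.sum_congr rfl h1, Finset.sum_ite, Finset.sum_const_zero, add_zero,
    Finset.sum_const, smul_eq_mul, mul_one]
  congr 1
  ext c
  simp only [Finset.mem_filter, Finset.mem_univ, true_and]
  exact ⟨fun h => h.2, fun h => ⟨Fr.blk_short c h, h⟩⟩

lemma card_SS (π : Equiv.Perm (T ⊕ Fin N)) : (SS π).card =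
    (Finset.univ.filter (fun p : T ⊕ Fin N => p.isRight = true)).card := by
  unfold SS
  apply Finset.card_bij (fun p _ => π p)
  · intro p hp
    simpa using hp
  · intro p _ q _ h
    exact π.injective h
  · intro q hq
    refine ⟨π.symm q, ?_, by simp⟩
    simpa using hq

lemma SS_eq (π : Equiv.Perm (T ⊕ Fin N))
    (h : ∑ p ∈ SS π, shc R Fr.len Fr.srv p ≤
      ∑ p ∈ Finset.univ.filter (fun p : T ⊕ Fin N => p.isRight = true), shc R Fr.len Fr.srv p) :
    SS π = Finset.univ.filter (fun p : T ⊕ Fin N => p.isRight = true) := by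
  set Q : Finset (T ⊕ Fin N) := Finset.univ.filter (fun p : T ⊕ Fin N => p.isRight = true) with hQ
  have hcard : (SS π).card = Q.card := card_SS π
  by_contra hne
  have h1 : (SS π \ Q).card = (Q \ SS π).card := Finset.card_sdiff_comm hcard
  have h2 : 0 < (SS π \ Q).card := by
    rw [Finset.card_pos]
    by_contra hemp
    rw [Finset.not_nonempty_iff_eq_empty, Finset.sdiff_eq_empty_iff_subset] at hemp
    exact hne (Finset.eq_of_subset_of_card_le hemp hcard.ge)
  have h3 : (SS π \ Q).card * (Fr.k + 1) ≤ ∑ p ∈ SS π \ Q, shc R Fr.len Fr.srv p := by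
    rw [← smul_eq_mul]
    apply Finset.card_nsmul_le_sum
    intro p hp
    rw [Finset.mem_sdiff, hQ, Finset.mem_filter] at hp
    rcases p with t | q
    · exact Fr.sh_top t
    · exact absurd ⟨Finset.mem_univ _, rfl⟩ hp.2
  have h4 : ∑ p ∈ Q \ SS π, shc R Fr.len Fr.srv p ≤ (Q \ SS π).card * Fr.k := by
    rw [← smul_eq_mul]
    apply Finset.sum_le_card_nsmul
    intro p hp
    rw [Finset.mem_sdiff, hQ, Finset.mem_filter] at hp
    rcases p with t | q
    · exact absurd hp.1.2 (by simp)
    · exact Fr.sh_pt q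
  have h5 := Finset.sum_inter_add_sum_sdiff (SS π) Q (shc R Fr.len Fr.srv)
  have h6 := Finset.sum_inter_add_sum_sdiff Q (SS π) (shc R Fr.len Fr.srv)
  rw [Finset.inter_comm] at h6
  rw [h1] at h3 h2
  have h7 : (Q \ SS π).card * Fr.k < (Q \ SS π).card * (Fr.k + 1) :=
    Nat.mul_lt_mul_of_pos_left (Nat.lt_succ_self _) h2
  omega

lemma D_homog (z : Fin N → ℕ → ℂ) (π : Equiv.Perm (T ⊕ Fin N)) {c : C} (hc : Fr.len c ≤ R)
    (lo : Fin (Fr.len c - R) → Fin N) : (Fr.D z π c lo).IsHomogeneous
      ((Finset.range (Fr.len c)).filter (fun i => Fr.srv c i ∈ SS π)).card := by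
  have h1 := det_homog (cls := Fr.cls) (mix := Fr.mix) (z := z) hc
    (fun j => π (Fr.J c lo j))
  have h2 : ((Finset.range (Fr.len c)).filter (fun i => Fr.srv c i ∈ SS π)).card =
      ∑ j : Fin (Fr.len c), if (π (Fr.J c lo j)).isRight then 1 else 0 := by
    rw [Finset.card_filter, ← Fin.sum_univ_eq_sum_range
      (fun i => if Fr.srv c i ∈ SS π then 1 else 0)]
    apply Finset.sum_congr rfl
    intro j _
    rw [Fr.J_of_lt (lt_of_lt_of_le j.2 hc)]
    simp only [SS, Finset.mem_filter, Finset.mem_univ, true_and]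
  rw [h2]
  exact h1

/-- The product of the short columns. -/
lemma short_homog (z : Fin N → ℕ → ℂ) (π : Equiv.Perm (T ⊕ Fin N))
    (lo : (c : C) → Fin (Fr.len c - R) → Fin N) :
    (∏ c ∈ Finset.univ.filter (fun c => Fr.len c ≤ R), Fr.D z π c (lo c)).IsHomogeneous
      (∑ p ∈ SS π, shc R Fr.len Fr.srv p) := by
  rw [sum_shc]
  apply IsHomogeneous.prod
  intro c hc
  rw [Finset.mem_filter] at hc
  exact Fr.D_homog z π hc.2 (lo c)

/-- Step 1: the coefficient formula, and the free points sit on the free positions. -/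
lemma coeff_prod (z : Fin N → ℕ → ℂ) (π : Equiv.Perm (T ⊕ Fin N))
    (lo : (c : C) → Fin (Fr.len c - R) → Fin N) :
    coeff Fr.mu (∏ c, Fr.D z π c (lo c)) =
      if SS π = Finset.univ.filter (fun p : T ⊕ Fin N => p.isRight = true) then
        coeff Fr.mu (∏ c ∈ Finset.univ.filter (fun c => Fr.len c ≤ R), Fr.D z π c (lo c)) *
        ∏ c ∈ Finset.univ.filter (fun c => ¬ Fr.len c ≤ R), coeff 0 (Fr.D z π c (lo c))
      else 0 := by
  rw [← Finset.prod_filter_mul_prod_filter_not Finset.univ (fun c => Fr.len c ≤ R)]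
  have hmu : Fr.mu.degree = ∑ p ∈ Finset.univ.filter (fun p : T ⊕ Fin N => p.isRight = true),
      shc R Fr.len Fr.srv p := by rw [Fr.degree_mu, Fr.sum_shc_right]
  have hc0 : ∀ (s : Finset C), coeff 0 (∏ c ∈ s, Fr.D z π c (lo c)) =
      ∏ c ∈ s, coeff 0 (Fr.D z π c (lo c)) := by
    intro s
    have := map_prod (constantCoeff (R := ℂ) (σ := ℕ × Fin N)) (fun c => Fr.D z π c (lo c)) s
    simp only [constantCoeff_eq] at this
    exact this
  split_ifs with h
  · have h1 := coeff_mul_homog (h := ∏ c ∈ Finset.univ.filter (fun c => ¬ Fr.len c ≤ R),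
      Fr.D z π c (lo c)) (Fr.short_homog z π lo) (μ := Fr.mu) (by rw [hmu, h])
    rw [h1, if_pos (by rw [hmu, h]), hc0]
  · have h2 : Fr.mu.degree < ∑ p ∈ SS π, shc R Fr.len Fr.srv p := by
      by_contra hlt
      rw [not_lt, hmu] at hlt
      exact h (Fr.SS_eq π hlt)
    rw [coeff_mul_homog (Fr.short_homog z π lo) h2.le, if_neg h2.ne]

end Frame

end Vale.Agent.P181.T4
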