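import Vale.Agent.P181.R2.H188.W2

set_option autoImplicit false

open MvPolynomial
open scoped Classical

namespace Vale.Agent.P181.T4

open Vale.Agent.P181.FR Vale.Agent.P181.H188W

/-- Number of incidences of the position `p` with the short columns (length at most `R`). -/
noncomputable def shc {T C : Type} [Fintype C] {N : ℕ} (R : ℕ) (len : C → ℕ)
    (srv : C → ℕ → T ⊕ Fin N) (p : T ⊕ Fin N) : ℕ :=
  ∑ c : C, if len c ≤ R then ((Finset.range (len c)).filter (fun i => srv c i = p)).card else 0

/-- The frame of the top part. Rows are numbered from `0`; `T` = top positions, `Fin N` = free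
points, `C` = columns; `srv c i` is the position serving row `i` of the column `c` (only `i < len c`,
`i < R` matter). -/
structure Frame (m R N : ℕ) (T C : Type) [Fintype T] [Fintype C] where
  cls : T → ℕ
  mix : T → Prop
  cls_lt : ∀ t, cls t < R
  mix_lt : ∀ t, mix t → cls t + 1 < R
  len : C → ℕ
  len_le : ∀ c, len c ≤ m
  srv : C → ℕ → T ⊕ Fin N
  blk : C → Prop
  bi : C → ℕ
  bq : C → Fin N
  blk_short : ∀ c, blk c → len c ≤ R
  bi_lt : ∀ c, blk c → bi c < len c
  blk_srv : ∀ c, blk c → srv c (bi c) = Sum.inr (bq c)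
  blk_pure : ∀ c, blk c → ∀ i < len c, i ≠ bi c → ∃ t, srv c i = Sum.inl t ∧ cls t = i ∧ ¬ mix t
  serve : ∀ c, ¬ blk c → ∀ i < len c, i < R → ∃ t, srv c i = Sum.inl t ∧
    (cls t = i ∨ (mix t ∧ cls t + 1 = i ∧
      ∃ t', srv c (i - 1) = Sum.inl t' ∧ cls t' = i - 1 ∧ ¬ mix t'))
  exact : ∀ t, ∃ c, len c = cls t + 1 ∧ ∃ i < len c, srv c i = Sum.inl t
  k : ℕ
  sh_pt : ∀ q, shc R len srv (Sum.inr q) ≤ k
  sh_top : ∀ t, k < shc R len srv (Sum.inl t)
  three : ∀ t, mix t → ∃ F : Finset T,
    (Finset.univ.filter (fun t' => mix t' ∧ cls t' = cls t)).card < F.card ∧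
    ∀ f ∈ F, f ≠ t ∧ cls f = cls t ∧ ∃ c i j, i < len c ∧ i < R ∧ j < len c ∧ j < R ∧
      srv c i = Sum.inl t ∧ srv c j = Sum.inl f
  mono_inj : Function.Injective (fun (q : Fin N) (i : ℕ) =>
    (Finset.univ.filter (fun c => blk c ∧ bi c = i ∧ bq c = q)).card)

/-- The positions of a column: the servers and then the points of the lower part. -/
noncomputable def Frame.J {m R N : ℕ} {T C : Type} [Fintype T] [Fintype C] (Fr : Frame m R N T C)
    (c : C) (lo : Fin (Fr.len c - R) → Fin N) (j : Fin (Fr.len c)) : T ⊕ Fin N :=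
  if h : (j : ℕ) < R then Fr.srv c j else Sum.inr (lo ⟨j - R, by omega⟩)

/-! ### Coefficients -/

lemma coeff_mul_homog {σ : Type} {g h : MvPolynomial σ ℂ} {K : ℕ} (hg : g.IsHomogeneous K)
    {μ : σ →₀ ℕ} (hμ : μ.degree ≤ K) :
    coeff μ (g * h) = if μ.degree = K then coeff μ g * coeff 0 h else 0 := by
  rw [coeff_mul]
  have key : ∀ x ∈ Finset.antidiagonal μ, x ≠ (μ, 0) → coeff x.1 g * coeff x.2 h = 0 := by
    intro x hx hne
    rw [Finset.mem_antidiagonal] at hx
    by_cases h1 : x.1.degree = K
    · exfalso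
      apply hne
      have h2 : x.1.degree + x.2.degree = μ.degree := by rw [← hx, map_add]
      have h3 : x.2.degree = 0 := by omega
      have h4 : x.2 = 0 := by
        rwa [Finsupp.degree_eq_zero_iff] at h3
      ext1
      · rw [← hx, h4, add_zero]
      · exact h4
    · rw [hg.coeff_eq_zero h1, zero_mul]
  rw [Finset.sum_eq_single (μ, 0) key (by
    intro h
    exact absurd (Finset.mem_antidiagonal.2 (add_zero μ)) h)]
  split_ifs with h1
  · rfl
  · rw [hg.coeff_eq_zero h1, zero_mul]

section ents

variable {T : Type} {N : ℕ}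

/-- the vector at a top position -/
noncomputable def vec (cls : T → ℕ) (mix : T → Prop) (t : T) (i : ℕ) : ℂ :=
  (if i = cls t then 1 else 0) + (if mix t ∧ i = cls t + 1 then 1 else 0)

/-- the vector at a position, as a polynomial in the top coordinates of the free points -/
noncomputable def ent (R : ℕ) (cls : T → ℕ) (mix : T → Prop) (z : Fin N → ℕ → ℂ) :
    T ⊕ Fin N → ℕ → MvPolynomial (ℕ × Fin N) ℂ
  | Sum.inl t, i => C (vec cls mix t i)
  | Sum.inr q, i => if i < R then X (i, q) else C (z q (i - R))

lemma ent_homog {R : ℕ} {cls : T → ℕ} {mix : T → Prop} {z : Fin N → ℕ → ℂ} (p : T ⊕ Fin N)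
    {i : ℕ} (hi : i < R) :
    (ent R cls mix z p i).IsHomogeneous (if p.isRight then 1 else 0) := by
  rcases p with t | q
  · simpa [ent] using isHomogeneous_C _ _
  · simp only [ent, hi, if_true, Sum.isRight_inr]
    exact isHomogeneous_X _ _

lemma det_homog {R l : ℕ} {cls : T → ℕ} {mix : T → Prop} {z : Fin N → ℕ → ℂ} (hl : l ≤ R)
    (f : Fin l → T ⊕ Fin N) :
    (Matrix.det (Matrix.of fun j k : Fin l => ent R cls mix z (f j) k)).IsHomogeneous
      (∑ j, if (f j).isRight then 1 else 0) := by
  rw [Matrix.det_apply]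
  apply IsHomogeneous.sum
  intro τ _
  have h1 : (∏ i, (Matrix.of fun j k : Fin l => ent R cls mix z (f j) k) (τ i) i).IsHomogeneous
      (∑ j, if (f (τ j)).isRight then 1 else 0) := by
    apply IsHomogeneous.prod
    intro i _
    exact ent_homog _ (lt_of_lt_of_le i.2 hl)
  rw [Equiv.sum_comp τ (fun j => if (f j).isRight then 1 else 0)] at h1
  rcases Int.units_eq_one_or (Equiv.Perm.sign τ) with h | h
  · rw [h, one_smul]; exact h1
  · rw [h, Units.neg_smul, one_smul]; exact h1.neg

end ents

/-! ### The determinants of the top part -/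

lemma det_serve_ne_zero {T : Type} {l : ℕ} (cls : T → ℕ) (mix : T → Prop) (f : ℕ → T)
    (hf : ∀ i < l, cls (f i) = i ∨ (mix (f i) ∧ cls (f i) + 1 = i ∧
      cls (f (i - 1)) = i - 1 ∧ ¬ mix (f (i - 1)))) :
    Matrix.det (Matrix.of fun j k : Fin l => vec cls mix (f j) k) ≠ 0 := by
  intro h0
  obtain ⟨v, hv, hMv⟩ := Matrix.exists_mulVec_eq_zero_iff.2 h0
  apply hv
  set w : ℕ → ℂ := fun k => if h : k < l then v ⟨k, h⟩ else 0 with hw
  have hwl : ∀ k, l ≤ k → w k = 0 := by
    intro k hk
    rw [hw]
    simp only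
    rw [dif_neg (by omega)]
  have hsum : ∀ j < l, w (cls (f j)) + (if mix (f j) then w (cls (f j) + 1) else 0) = 0 := by
    intro j hj
    have h1 := congrFun hMv ⟨j, hj⟩
    rw [Matrix.mulVec, dotProduct] at h1
    simp only [Matrix.of_apply, Pi.zero_apply] at h1
    have h2 : ∑ k : Fin l, vec cls mix (f j) k * v k =
        ∑ k ∈ Finset.range l, vec cls mix (f j) k * w k := by
      rw [← Fin.sum_univ_eq_sum_range (fun k => vec cls mix (f j) k * w k)]
      apply Finset.sum_congr rfl
      intro k _
      rw [hw]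
      simp only [Fin.is_lt, dif_pos]
    rw [h2] at h1
    refine Eq.trans ?_ h1
    have h3 : ∀ c : ℕ, ∑ k ∈ Finset.range l, (if k = c then (1 : ℂ) else 0) * w k = w c := by
      intro c
      by_cases hc : c < l
      · rw [Finset.sum_eq_single c]
        · rw [if_pos rfl, one_mul]
        · intro b _ hb
          rw [if_neg hb, zero_mul]
        · intro h
          exact absurd (Finset.mem_range.2 hc) h
      · rw [hwl c (by omega)]
        apply Finset.sum_eq_zero
        intro k hk
        rw [if_neg (by rw [Finset.mem_range] at hk; omega), zero_mul]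
    by_cases hm : mix (f j)
    · simp only [vec, hm, true_and, if_true, add_mul, Finset.sum_add_distrib, h3]
    · simp only [vec, hm, false_and, if_false, add_zero, h3]
  have hzero : ∀ d, ∀ i, i < l → l - i ≤ d → w i = 0 := by
    intro d
    induction d with
    | zero => intro i hi h; omega
    | succ d ih =>
      intro i hi hd
      have hnext : w (i + 1) = 0 := by
        by_cases h : i + 1 < l
        · exact ih (i + 1) h (by omega)
        · exact hwl _ (by omega)
      rcases hf i hi with h | ⟨hm, h1, h2, h3⟩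
      · have h4 := hsum i hi
        rw [h] at h4
        rw [hnext] at h4
        split_ifs at h4 <;> simpa using h4
      · have h4 := hsum i hi
        rw [if_pos hm, h1] at h4
        have h5 := hsum (i - 1) (by omega)
        rw [if_neg h3, h2, add_zero] at h5
        have h6 : cls (f i) = i - 1 := by omega
        rw [h6, h5, zero_add] at h4
        exact h4
  funext k
  have := hzero l k k.2 (by omega)
  rw [hw] at this
  simpa using this

/-- The determinant of a matrix which differs from `1` in a single row. -/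
lemma det_row {l : ℕ} {A : Type} [CommRing A] (i0 : Fin l) (y : Fin l → A)
    (M : Matrix (Fin l) (Fin l) A) (h1 : ∀ j ≠ i0, ∀ k, M j k = if k = j then 1 else 0)
    (h2 : ∀ k, M i0 k = y k) : M.det = y i0 := by
  have h3 : M = (1 : Matrix (Fin l) (Fin l) A).updateRow i0 y := by
    ext j k
    by_cases hj : j = i0
    · subst hj
      rw [Matrix.updateRow_self, h2]
    · rw [Matrix.updateRow_ne hj, h1 j hj, Matrix.one_apply]
      by_cases hk : j = k
      · rw [if_pos hk, if_pos hk.symm]
      · rw [if_neg hk, if_neg (fun h => hk h.symm)]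
  rw [h3, ← Matrix.cramer_transpose_apply, Matrix.transpose_one, Matrix.cramer_one]
  rfl

end Vale.Agent.P181.T4
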