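import Mathlib.Algebra.BigOperators.Intervals
import Mathlib.Tactic

set_option autoImplicit false

open Finset

namespace Vale.Agent.P181.H914

/-- **(P3)** the numbers of pure positions `w r` and of upper services `U r`. -/
theorem numbers {a R : ℕ} (ha : 20 ≤ a) (τ : ℕ → ℕ) (hτ : ∀ r < R, 8 * a + 20 ≤ τ r)
    (hdiv : a ∣ ∑ r ∈ range R, τ r) :
    ∃ w U : ℕ → ℕ, (∀ r, 6 ≤ U r ∧ U r ≤ a + 5) ∧
      (∀ r < R, τ r = (if r = 0 then 0 else U (r - 1)) + a * w r +
        (if r + 1 < R then 2 * a - U r else 0)) ∧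
      ∀ r < R, 3 ≤ w r ∧ a * w r ≤ τ r := by
  have ha0 : 0 < a := by omega
  set S : ℕ → ℕ := fun r => ∑ i ∈ range (r + 1), τ i with hS
  set U : ℕ → ℕ := fun r => 6 + (a - (S r + 6) % a) % a with hU
  have hU1 : ∀ r, 6 ≤ U r ∧ U r ≤ a + 5 := by
    intro r
    rw [hU]
    simp only
    have := Nat.mod_lt (a - (S r + 6) % a) ha0
    omega
  have hU2 : ∀ r, a ∣ S r + U r := by
    intro r
    have h1 : S r + U r = (S r + 6) + (a - (S r + 6) % a) % a := by
      rw [hU]
      simp only
      ring
    rw [h1]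
    have h2 := Nat.mod_lt (S r + 6) ha0
    rw [Nat.dvd_iff_mod_eq_zero, Nat.add_mod, Nat.mod_mod]
    rcases Nat.eq_zero_or_pos ((S r + 6) % a) with h | h
    · rw [h, Nat.sub_zero, Nat.mod_self, Nat.zero_add, Nat.zero_mod]
    · rw [Nat.mod_eq_of_lt (show a - (S r + 6) % a < a by omega)]
      have h3 : (S r + 6) % a + (a - (S r + 6) % a) = a := by omega
      rw [h3, Nat.mod_self]
  have hdv : ∀ r < R, a ∣ τ r - (if r = 0 then 0 else U (r - 1)) -
      (if r + 1 < R then 2 * a - U r else 0) := by
    intro r hr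
    have hprev : ∃ x, (x = 0 ∨ True) ∧ a ∣ x ∧ S r = τ r + x - (if r = 0 then 0 else U (r - 1)) ∧
        (if r = 0 then 0 else U (r - 1)) ≤ x := by
      by_cases h0 : r = 0
      · subst h0
        refine ⟨0, Or.inl rfl, dvd_zero a, ?_, by simp⟩
        rw [hS]
        simp
      · obtain ⟨s, rfl⟩ := Nat.exists_eq_succ_of_ne_zero h0
        refine ⟨S s + U s, Or.inr trivial, hU2 s, ?_, ?_⟩
        · have h1 : S (s + 1) = S s + τ (s + 1) := by
            rw [hS]
            simp only
            rw [Finset.sum_range_succ (fun i => τ i) (s + 1)]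
          simp only [Nat.succ_eq_add_one, h1, Nat.add_sub_cancel]
          rw [if_neg (by omega)]
          omega
        · simp only [Nat.succ_eq_add_one, Nat.add_sub_cancel]
          rw [if_neg (by omega)]
          omega
    obtain ⟨x, -, hx, hxS, hxle⟩ := hprev
    have hτr := hτ r hr
    set p : ℕ := (if r = 0 then 0 else U (r - 1)) with hp
    have hpb : p ≤ a + 5 := by
      rw [hp]
      split_ifs
      · omega
      · exact (hU1 (r - 1)).2
    by_cases h1 : r + 1 < R
    · rw [if_pos h1]
      have h2 : τ r - p - (2 * a - U r) = (S r + U r) - (x + 2 * a) := by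
        have := hU1 r
        omega
      rw [h2]
      apply Nat.dvd_sub (hU2 r)
      exact dvd_add hx (dvd_mul_left a 2)
    · rw [if_neg h1]
      have h3 : S r = ∑ i ∈ range R, τ i := by
        rw [hS]
        simp only
        congr 2
        omega
      have h2 : τ r - p - 0 = S r - x := by omega
      rw [h2, h3]
      exact Nat.dvd_sub hdiv hx
  refine ⟨fun r => (τ r - (if r = 0 then 0 else U (r - 1)) -
      (if r + 1 < R then 2 * a - U r else 0)) / a, U, hU1, ?_, ?_⟩
  · intro r hr
    have h1 := Nat.mul_div_cancel' (hdv r hr)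
    simp only
    rw [h1]
    have hτr := hτ r hr
    have h2 := hU1 r
    have h3 : (if r = 0 then 0 else U (r - 1)) ≤ a + 5 := by
      split_ifs
      · omega
      · exact (hU1 (r - 1)).2
    split_ifs at h3 ⊢ <;> omega
  · intro r hr
    have h1 := Nat.mul_div_cancel' (hdv r hr)
    have hτr := hτ r hr
    have h2 := hU1 r
    have h3 : (if r = 0 then 0 else U (r - 1)) ≤ a + 5 := by
      split_ifs
      · omega
      · exact (hU1 (r - 1)).2
    have h4 : (if r + 1 < R then 2 * a - U r else 0) ≤ 2 * a := by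
      split_ifs <;> omega
    constructor
    · rw [Nat.le_div_iff_mul_le ha0]
      omega
    · simp only
      rw [h1]
      omega

end Vale.Agent.P181.H914
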