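import Vale.Agent.P181.H914.Force

set_option autoImplicit false

open MvPolynomial
open scoped Classical

namespace Vale.Agent.P181.T4

open Vale.Agent.P181.FR Vale.Agent.P181.H188W

namespace Frame

variable {m R N : ℕ} {T C : Type} [Fintype T] [Fintype C] (Fr : Frame m R N T C)

/-- `π` preserves the types of the positions and permutes the free points by `τ`. -/
def Typed (π : Equiv.Perm (T ⊕ Fin N)) (τ : Equiv.Perm (Fin N)) : Prop :=
  (∀ q, π (Sum.inr q) = Sum.inr (τ q)) ∧
  ∀ t, ∃ t', π (Sum.inl t) = Sum.inl t' ∧ Fr.cls t' = Fr.cls t ∧ (Fr.mix t' ↔ Fr.mix t)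

lemma D_zero_row (z : Fin N → ℕ → ℂ) (π : Equiv.Perm (T ⊕ Fin N)) {c : C}
    {lo : Fin (Fr.len c - R) → Fin N} {j : Fin (Fr.len c)} {t' : T}
    (h : π (Fr.J c lo j) = Sum.inl t') (hc : Fr.len c ≤ Fr.cls t') : Fr.D z π c lo = 0 := by
  unfold D
  apply Matrix.det_eq_zero_of_row_eq_zero j
  intro k
  rw [Matrix.of_apply, h]
  simp only [ent, vec]
  have hk := k.2
  rw [if_neg (by omega), if_neg (by rintro ⟨-, h2⟩; omega), add_zero, map_zero]

lemma D_eq_rows (z : Fin N → ℕ → ℂ) (π : Equiv.Perm (T ⊕ Fin N)) {c : C}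
    {lo : Fin (Fr.len c - R) → Fin N} {j j' : Fin (Fr.len c)} (hj : j ≠ j') {t t' : T}
    (h : π (Fr.J c lo j) = Sum.inl t) (h' : π (Fr.J c lo j') = Sum.inl t')
    (hcls : Fr.cls t = Fr.cls t') (hmix : Fr.mix t ↔ Fr.mix t') : Fr.D z π c lo = 0 := by
  unfold D
  apply Matrix.det_zero_of_row_eq hj
  funext k
  rw [Matrix.of_apply, Matrix.of_apply, h, h']
  simp only [ent, vec, hcls, hmix]

lemma typed_of_ne (z : Fin N → ℕ → ℂ) (π : Equiv.Perm (T ⊕ Fin N))
    (lo : (c : C) → Fin (Fr.len c - R) → Fin N)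
    (h1 : SS π = Finset.univ.filter (fun p : T ⊕ Fin N => p.isRight = true))
    (h2 : ∀ c, Fr.D z π c (lo c) ≠ 0) : ∃ τ, Fr.Typed π τ := by
  have hR : ∀ p, (π p).isRight = true ↔ p.isRight = true := by
    intro p
    have h3 : p ∈ SS π ↔ p ∈ Finset.univ.filter (fun p : T ⊕ Fin N => p.isRight = true) := by
      rw [h1]
    simpa [SS] using h3
  have hf : ∀ t : T, ∃ t', π (Sum.inl t) = Sum.inl t' := by
    intro t
    rcases hp : π (Sum.inl t) with t' | q
    · exact ⟨t', rfl⟩
    · exfalso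
      have h3 := (hR (Sum.inl t)).1 (by rw [hp]; rfl)
      exact absurd h3 (by simp)
  choose f hf using hf
  have hfinj : Function.Injective f := by
    intro t t' h
    have h3 : π (Sum.inl t) = π (Sum.inl t') := by rw [hf, hf, h]
    exact Sum.inl_injective (π.injective h3)
  have hg : ∀ q : Fin N, ∃ q', π (Sum.inr q) = Sum.inr q' := by
    intro q
    rcases hp : π (Sum.inr q) with t' | q'
    · exfalso
      have h3 := (hR (Sum.inr q)).2 rfl
      rw [hp] at h3
      exact absurd h3 (by simp)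
    · exact ⟨q', rfl⟩
  choose g hg using hg
  have hginj : Function.Injective g := by
    intro t t' h
    have h3 : π (Sum.inr t) = π (Sum.inr t') := by rw [hg, hg, h]
    exact Sum.inr_injective (π.injective h3)
  have hle : ∀ t, Fr.cls (f t) ≤ Fr.cls t := by
    intro t
    by_contra hlt
    rw [not_le] at hlt
    obtain ⟨c, hc, i, hi, hs⟩ := Fr.exact t
    have hiR : i < R := by have := Fr.cls_lt t; omega
    apply h2 c
    have h3 : π (Fr.J c (lo c) ⟨i, hi⟩) = Sum.inl (f t) := by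
      rw [Fr.J_of_lt (j := ⟨i, hi⟩) hiR]
      simp only
      rw [hs, hf]
    exact Fr.D_zero_row z π h3 (by omega)
  have hsum : ∑ t, Fr.cls (f t) = ∑ t, Fr.cls t :=
    Equiv.sum_comp (Equiv.ofBijective f (Finite.injective_iff_bijective.1 hfinj)) Fr.cls
  have hcls : ∀ t, Fr.cls (f t) = Fr.cls t := by
    intro t
    exact (Finset.sum_eq_sum_iff_of_le (fun t _ => hle t)).1 hsum t (Finset.mem_univ t)
  have hmix1 : ∀ t, Fr.mix t → Fr.mix (f t) := by
    intro t ht
    by_contra hn
    obtain ⟨F, hF, hF2⟩ := Fr.three t ht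
    have hsub : F.image f ⊆ Finset.univ.filter (fun t' => Fr.mix t' ∧ Fr.cls t' = Fr.cls t) := by
      intro x hx
      rw [Finset.mem_image] at hx
      obtain ⟨y, hy, rfl⟩ := hx
      obtain ⟨hne, hcl, c, i, j, hi, hiR, hj, hjR, hsi, hsj⟩ := hF2 y hy
      rw [Finset.mem_filter]
      refine ⟨Finset.mem_univ _, ?_, by rw [hcls, hcl]⟩
      by_contra hny
      apply h2 c
      have hij : (⟨i, hi⟩ : Fin (Fr.len c)) ≠ ⟨j, hj⟩ := by
        intro h
        have h3 : i = j := by simpa using h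
        rw [h3, hsj] at hsi
        exact hne (Sum.inl_injective hsi)
      have h3 : π (Fr.J c (lo c) ⟨i, hi⟩) = Sum.inl (f t) := by
        rw [Fr.J_of_lt (j := ⟨i, hi⟩) hiR]
        simp only
        rw [hsi, hf]
      have h4 : π (Fr.J c (lo c) ⟨j, hj⟩) = Sum.inl (f y) := by
        rw [Fr.J_of_lt (j := ⟨j, hj⟩) hjR]
        simp only
        rw [hsj, hf]
      exact Fr.D_eq_rows z π hij h3 h4 (by rw [hcls, hcls, hcl])
        ⟨fun h => absurd h hn, fun h => absurd h hny⟩
    have h5 := Finset.card_le_card hsub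
    rw [Finset.card_image_of_injective _ hfinj] at h5
    omega
  have hmix : ∀ t, Fr.mix (f t) ↔ Fr.mix t := by
    intro t
    refine ⟨fun h => ?_, hmix1 t⟩
    have h3 : (Finset.univ.filter Fr.mix).image f = Finset.univ.filter Fr.mix := by
      apply Finset.eq_of_subset_of_card_le
      · intro x hx
        rw [Finset.mem_image] at hx
        obtain ⟨y, hy, rfl⟩ := hx
        rw [Finset.mem_filter] at hy ⊢
        exact ⟨Finset.mem_univ _, hmix1 y hy.2⟩
      · rw [Finset.card_image_of_injective _ hfinj]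
    have h4 : f t ∈ (Finset.univ.filter Fr.mix).image f := by
      rw [h3, Finset.mem_filter]
      exact ⟨Finset.mem_univ _, h⟩
    rw [Finset.mem_image] at h4
    obtain ⟨y, hy, hyt⟩ := h4
    rw [Finset.mem_filter] at hy
    rw [← hfinj hyt]
    exact hy.2
  exact ⟨Equiv.ofBijective g (Finite.injective_iff_bijective.1 hginj),
    fun q => by rw [hg]; rfl, fun t => ⟨f t, hf t, hcls t, hmix t⟩⟩

end Frame

end Vale.Agent.P181.T4
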