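import Vale.Agent.P181.H914.Types

set_option autoImplicit false

open MvPolynomial
open scoped Classical

namespace Vale.Agent.P181.T4

open Vale.Agent.P181.FR Vale.Agent.P181.H188W

/-- determinant of the upper left `l × l` block -/
noncomputable def detN (l : ℕ) (A : ℕ → ℕ → ℂ) : ℂ :=
  Matrix.det (Matrix.of fun j k : Fin l => A j k)

namespace Frame

variable {m R N : ℕ} {T C : Type} [Fintype T] [Fintype C] (Fr : Frame m R N T C)

/-- the vector of a top position (`0` for a free point) -/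
noncomputable def vecS (p : T ⊕ Fin N) (i : ℕ) : ℂ :=
  Sum.elim (fun t => vec Fr.cls Fr.mix t i) (fun _ => 0) p

/-- the constant of the column `c` -/
noncomputable def kap (c : C) : ℂ :=
  if Fr.blk c then 1 else detN (min (Fr.len c) R) (fun j k => Fr.vecS (Fr.srv c j) k)

lemma kap_ne (c : C) : Fr.kap c ≠ 0 := by
  unfold kap
  split_ifs with hb
  · exact one_ne_zero
  · by_cases h0 : min (Fr.len c) R = 0
    · unfold detN
      rw [h0]
      simp
    · have hch : ∀ i, ∃ t, i < min (Fr.len c) R → Fr.srv c i = Sum.inl t := by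
        intro i
        by_cases hi : i < min (Fr.len c) R
        · obtain ⟨t, ht, -⟩ := Fr.serve c hb i (by omega) (by omega)
          exact ⟨t, fun _ => ht⟩
        · obtain ⟨t, ht, -⟩ := Fr.serve c hb 0 (by omega) (by omega)
          exact ⟨t, fun h => absurd h hi⟩
      choose f hf using hch
      have h1 : detN (min (Fr.len c) R) (fun j k => Fr.vecS (Fr.srv c j) k) =
          Matrix.det (Matrix.of fun j k : Fin (min (Fr.len c) R) =>
            vec Fr.cls Fr.mix (f j) k) := by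
        unfold detN
        congr 1
        ext j k
        rw [Matrix.of_apply, Matrix.of_apply]
        beta_reduce
        rw [hf j j.2]
        rfl
      rw [h1]
      apply det_serve_ne_zero
      intro i hi
      obtain ⟨t, ht, h2⟩ := Fr.serve c hb i (by omega) (by omega)
      have h3 : f i = t := Sum.inl_injective ((hf i hi).symm.trans ht)
      rw [h3]
      rcases h2 with h2 | ⟨hm, hc, t', ht', hc', hm'⟩
      · exact Or.inl h2
      · right
        have h4 : f (i - 1) = t' := Sum.inl_injective ((hf (i - 1) (by omega)).symm.trans ht')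
        rw [h4]
        exact ⟨hm, hc, hc', hm'⟩

/-- the minor of the lower part -/
noncomputable def low (z : Fin N → ℕ → ℂ) (τ : Equiv.Perm (Fin N)) (c : C)
    (lo : Fin (Fr.len c - R) → Fin N) : ℂ :=
  Matrix.det (Matrix.of fun j k : Fin (Fr.len c - R) => z (τ (lo j)) k)

variable {Fr}

lemma Typed.ent_inl {π : Equiv.Perm (T ⊕ Fin N)} {τ : Equiv.Perm (Fin N)} (h : Fr.Typed π τ)
    (z : Fin N → ℕ → ℂ) (t : T) (k : ℕ) :
    ent R Fr.cls Fr.mix z (π (Sum.inl t)) k = MvPolynomial.C (vec Fr.cls Fr.mix t k) := by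
  obtain ⟨t', ht, hc, hm⟩ := h.2 t
  rw [ht]
  simp only [ent, vec, hc, hm]

lemma Typed.D_short {π : Equiv.Perm (T ⊕ Fin N)} {τ : Equiv.Perm (Fin N)} (h : Fr.Typed π τ)
    (z : Fin N → ℕ → ℂ) {c : C} (hc : Fr.len c ≤ R) (hb : ¬ Fr.blk c)
    (lo : Fin (Fr.len c - R) → Fin N) : Fr.D z π c lo = MvPolynomial.C (Fr.kap c) := by
  unfold D kap detN
  rw [if_neg hb, min_eq_left hc, RingHom.map_det]
  congr 1
  ext1 j k
  rw [RingHom.mapMatrix_apply, Matrix.map_apply, Matrix.of_apply, Matrix.of_apply,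
    Fr.J_of_lt (lt_of_lt_of_le j.2 hc)]
  obtain ⟨t, ht, -⟩ := Fr.serve c hb j j.2 (lt_of_lt_of_le j.2 hc)
  beta_reduce
  rw [ht, h.ent_inl]
  rfl

lemma Typed.D_blk {π : Equiv.Perm (T ⊕ Fin N)} {τ : Equiv.Perm (Fin N)} (h : Fr.Typed π τ)
    (z : Fin N → ℕ → ℂ) {c : C} (hb : Fr.blk c)
    (lo : Fin (Fr.len c - R) → Fin N) : Fr.D z π c lo = X (Fr.bi c, τ (Fr.bq c)) := by
  have hc := Fr.blk_short c hb
  unfold D
  rw [det_row ⟨Fr.bi c, Fr.bi_lt c hb⟩
    (fun k => ent R Fr.cls Fr.mix z (Sum.inr (τ (Fr.bq c))) k)]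
  · simp only [ent]
    rw [if_pos (lt_of_lt_of_le (Fr.bi_lt c hb) hc)]
  · intro j hj k
    have hj' : (j : ℕ) ≠ Fr.bi c := fun h => hj (Fin.ext h)
    obtain ⟨t, ht, hct, hmt⟩ := Fr.blk_pure c hb j j.2 hj'
    rw [Matrix.of_apply, Fr.J_of_lt (lt_of_lt_of_le j.2 hc), ht, h.ent_inl]
    unfold vec
    rw [hct]
    by_cases hkj : k = j
    · rw [if_pos hkj, if_pos (by rw [hkj]), if_neg (fun h => hmt h.1), add_zero, map_one]
    · rw [if_neg hkj, if_neg (fun h => hkj (Fin.ext h)), if_neg (fun h => hmt h.1), add_zero,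
        map_zero]
  · intro k
    rw [Matrix.of_apply, Fr.J_of_lt (j := ⟨Fr.bi c, Fr.bi_lt c hb⟩)
      (lt_of_lt_of_le (Fr.bi_lt c hb) hc)]
    simp only
    rw [Fr.blk_srv c hb, h.1]

lemma Typed.D_long {π : Equiv.Perm (T ⊕ Fin N)} {τ : Equiv.Perm (Fin N)} (h : Fr.Typed π τ)
    (z : Fin N → ℕ → ℂ) {c : C} (hc : ¬ Fr.len c ≤ R)
    (lo : Fin (Fr.len c - R) → Fin N) :
    coeff 0 (Fr.D z π c lo) = Fr.kap c * Fr.low z τ c lo := by
  have hb : ¬ Fr.blk c := fun hb => hc (Fr.blk_short c hb)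
  unfold D kap low detN
  rw [if_neg hb, min_eq_right (by omega), ← constantCoeff_eq, RingHom.map_det]
  have hlen : R + (Fr.len c - R) = Fr.len c := by omega
  set e0 : Fin R ⊕ Fin (Fr.len c - R) ≃ Fin (Fr.len c) :=
    finSumFinEquiv.trans (finCongr hlen) with he0
  rw [← Matrix.det_submatrix_equiv_self e0, ← Matrix.det_fromBlocks_zero₂₁ _ 0 _]
  have h0 : ∀ j : Fin R, ((e0 (Sum.inl j) : Fin (Fr.len c)) : ℕ) = j := by
    intro j
    rw [he0]
    simp
  have h1 : ∀ j : Fin (Fr.len c - R), ((e0 (Sum.inr j) : Fin (Fr.len c)) : ℕ) = R + j := by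
    intro j
    rw [he0]
    simp
  have hvec : ∀ t k, R ≤ k → vec Fr.cls Fr.mix t k = 0 := by
    intro t k hk
    unfold vec
    have := Fr.cls_lt t
    rw [if_neg (by omega), if_neg (by rintro ⟨h2, h3⟩; have := Fr.mix_lt t h2; omega), add_zero]
  congr 1
  ext j k
  rcases j with j | j
  · obtain ⟨t, ht, -⟩ := Fr.serve c hb j (by omega) j.2
    have h2 : Fr.J c lo (e0 (Sum.inl j)) = Sum.inl t := by
      rw [Fr.J_of_lt (by rw [h0]; exact j.2), h0, ht]
    rcases k with k | k
    · rw [Matrix.submatrix_apply, RingHom.mapMatrix_apply, Matrix.map_apply, Matrix.of_apply, h2,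
        h.ent_inl, constantCoeff_C, Matrix.fromBlocks_apply₁₁, Matrix.of_apply, h0]
      beta_reduce
      rw [ht]
      rfl
    · rw [Matrix.submatrix_apply, RingHom.mapMatrix_apply, Matrix.map_apply, Matrix.of_apply, h2,
        h.ent_inl, constantCoeff_C, Matrix.fromBlocks_apply₁₂, Matrix.zero_apply, h1,
        hvec _ _ (by omega)]
  · have h2 : Fr.J c lo (e0 (Sum.inr j)) = Sum.inr (lo j) := by
      rw [Fr.J_of_ge (by rw [h1]; omega)]
      congr 2
      ext
      simp only [h1]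
      omega
    rcases k with k | k
    · rw [Matrix.submatrix_apply, RingHom.mapMatrix_apply, Matrix.map_apply, Matrix.of_apply, h2,
        h.1, Matrix.fromBlocks_apply₂₁, Matrix.zero_apply]
      simp only [ent]
      rw [if_pos (by rw [h0]; exact k.2), constantCoeff_X]
    · rw [Matrix.submatrix_apply, RingHom.mapMatrix_apply, Matrix.map_apply, Matrix.of_apply, h2,
        h.1, Matrix.fromBlocks_apply₂₂, Matrix.of_apply]
      simp only [ent]
      rw [if_neg (by rw [h1]; omega), constantCoeff_C, h1]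
      congr 1
      omega

variable (Fr)

lemma mu_apply (τ : Equiv.Perm (Fin N)) (i : ℕ) (q : Fin N) :
    (∑ c ∈ Finset.univ.filter Fr.blk, Finsupp.single (Fr.bi c, τ (Fr.bq c)) 1 :
      (ℕ × Fin N) →₀ ℕ) (i, τ q) =
    (Finset.univ.filter (fun c => Fr.blk c ∧ Fr.bi c = i ∧ Fr.bq c = q)).card := by
  rw [Finsupp.finsetSum_apply, Finset.card_filter, Finset.sum_filter]
  apply Finset.sum_congr rfl
  intro c _
  rw [Finsupp.single_apply]
  by_cases hb : Fr.blk c
  · simp only [hb, true_and, if_true, Prod.mk.injEq, EmbeddingLike.apply_eq_iff_eq]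
  · simp only [hb, false_and, if_false]

lemma mu_eq_iff (τ : Equiv.Perm (Fin N)) :
    (∑ c ∈ Finset.univ.filter Fr.blk, Finsupp.single (Fr.bi c, τ (Fr.bq c)) 1 :
      (ℕ × Fin N) →₀ ℕ) = Fr.mu ↔ τ = 1 := by
  constructor
  · intro h
    ext1 q
    rw [Equiv.Perm.one_apply]
    apply Fr.mono_inj
    funext i
    have h1 := Fr.mu_apply τ i q
    rw [h] at h1
    have h2 := Fr.mu_apply 1 i (τ q)
    rw [Equiv.Perm.one_apply] at h2
    simp only [Equiv.Perm.one_apply] at h2
    exact h2.symm.trans h1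
  · rintro rfl
    rfl

/-- **The value**: the coefficient of the monomial `mu`. -/
lemma coeff_typed {π : Equiv.Perm (T ⊕ Fin N)} {τ : Equiv.Perm (Fin N)} (h : Fr.Typed π τ)
    (z : Fin N → ℕ → ℂ) (lo : (c : C) → Fin (Fr.len c - R) → Fin N) :
    coeff Fr.mu (∏ c ∈ Finset.univ.filter (fun c => Fr.len c ≤ R), Fr.D z π c (lo c)) *
        ∏ c ∈ Finset.univ.filter (fun c => ¬ Fr.len c ≤ R), coeff 0 (Fr.D z π c (lo c)) =
      if τ = 1 then (∏ c, Fr.kap c) * ∏ c, Fr.low z 1 c (lo c) else 0 := by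
  have h1 : ∀ c ∈ Finset.univ.filter (fun c => Fr.len c ≤ R), Fr.D z π c (lo c) =
      MvPolynomial.C (Fr.kap c) * (if Fr.blk c then X (Fr.bi c, τ (Fr.bq c)) else 1) := by
    intro c hc
    rw [Finset.mem_filter] at hc
    by_cases hb : Fr.blk c
    · rw [h.D_blk z hb, if_pos hb]
      unfold kap
      rw [if_pos hb, map_one, one_mul]
    · rw [h.D_short z hc.2 hb, if_neg hb, mul_one]
  have h2 : ∏ c ∈ Finset.univ.filter (fun c => Fr.len c ≤ R),
      (if Fr.blk c then (X (Fr.bi c, τ (Fr.bq c)) : MvPolynomial (ℕ × Fin N) ℂ) else 1) =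
      monomial (∑ c ∈ Finset.univ.filter Fr.blk, Finsupp.single (Fr.bi c, τ (Fr.bq c)) 1) 1 := by
    rw [Finset.prod_ite, Finset.prod_const_one, mul_one]
    have h3 : (Finset.univ.filter (fun c => Fr.len c ≤ R)).filter Fr.blk =
        Finset.univ.filter Fr.blk := by
      ext c
      simp only [Finset.mem_filter, Finset.mem_univ, true_and]
      exact ⟨fun h => h.2, fun h => ⟨Fr.blk_short c h, h⟩⟩
    rw [h3, monomial_sum_one]
    rfl
  rw [Finset.prod_congr rfl h1, Finset.prod_mul_distrib, h2, ← map_prod, coeff_C_mul,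
    coeff_monomial]
  have h4 : ∏ c ∈ Finset.univ.filter (fun c => ¬ Fr.len c ≤ R), coeff 0 (Fr.D z π c (lo c)) =
      (∏ c ∈ Finset.univ.filter (fun c => ¬ Fr.len c ≤ R), Fr.kap c) *
        ∏ c, Fr.low z τ c (lo c) := by
    rw [← Finset.prod_filter_mul_prod_filter_not Finset.univ (fun c => Fr.len c ≤ R)
      (fun c => Fr.low z τ c (lo c))]
    have h5 : ∏ c ∈ Finset.univ.filter (fun c => Fr.len c ≤ R), Fr.low z τ c (lo c) = 1 := by
      apply Finset.prod_eq_one
      intro c hc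
      rw [Finset.mem_filter] at hc
      unfold low
      have h6 : Fr.len c - R = 0 := by omega
      have : IsEmpty (Fin (Fr.len c - R)) := by rw [h6]; infer_instance
      exact Matrix.det_isEmpty
    rw [h5, one_mul, ← Finset.prod_mul_distrib]
    apply Finset.prod_congr rfl
    intro c hc
    rw [Finset.mem_filter] at hc
    exact h.D_long z hc.2 (lo c)
  rw [h4]
  by_cases hτ : τ = 1
  · rw [if_pos hτ, if_pos ((Fr.mu_eq_iff τ).2 hτ), mul_one, hτ,
      ← Finset.prod_filter_mul_prod_filter_not Finset.univ (fun c => Fr.len c ≤ R) Fr.kap]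
    ring
  · rw [if_neg hτ, if_neg (fun h => hτ ((Fr.mu_eq_iff τ).1 h)), mul_zero, zero_mul]

end Frame

end Vale.Agent.P181.T4
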